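import Crest.Agent.N334.AC.F.Defs

/-! # S0520 part F: the two classes of local supermartingales, averages
(statements by helper27, proofs by helper48) -/

set_option autoImplicit false
set_option linter.unusedSectionVars false
set_option linter.unusedVariables false

open Finset

namespace Crest.Agent.N334.AC

variable {Λ : Type} [Fintype Λ] [DecidableEq Λ]

theorem avg_const {N : ℕ} (hN : 0 < N) (c : ℝ) : avg N (fun _ => c) = c := by
  have : (N : ℝ) ≠ 0 := by positivity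
  rw [avg, sum_const, card_range, nsmul_eq_mul, mul_div_cancel_left₀ _ this]
theorem avg_mono {N : ℕ} {f g : ℕ → ℝ} (h : ∀ k < N, f k ≤ g k) : avg N f ≤ avg N g :=
  div_le_div_of_nonneg_right (sum_le_sum fun k hk => h k (mem_range.1 hk)) (Nat.cast_nonneg _)
theorem avg_add (N : ℕ) (f g : ℕ → ℝ) : avg N (fun k => f k + g k) = avg N f + avg N g := by
  rw [avg, avg, avg, sum_add_distrib, add_div]
theorem avg_mul (N : ℕ) (c : ℝ) (f : ℕ → ℝ) : avg N (fun k => c * f k) = c * avg N f := by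
  rw [avg, avg, ← mul_sum, mul_div_assoc]
theorem avg_re (N : ℕ) (f : ℕ → ℂ) : avg N (fun k => (f k).re) = (avgV N f).re := by
  rw [avg, avgV, Complex.smul_re, Complex.re_sum, smul_eq_mul, inv_mul_eq_div]
theorem avgV_mul (N : ℕ) (c : ℂ) (f : ℕ → ℂ) : avgV N (fun k => f k * c) = avgV N f * c := by
  rw [avgV, avgV, ← sum_mul, smul_mul_assoc]
theorem norm_avgV_le {V : Type} [NormedAddCommGroup V] [NormedSpace ℝ V] (N : ℕ) (f : ℕ → V) :
    ‖avgV N f‖ ≤ avg N fun k => ‖f k‖ := by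
  rw [avgV, avg, norm_smul, norm_inv, Real.norm_natCast, inv_mul_eq_div]
  exact div_le_div_of_nonneg_right (norm_sum_le _ _) (Nat.cast_nonneg _)

theorem card_pi (S : Λ → Finset ℕ) :
    ((Fintype.piFinset S).card : ℝ) = ∏ x, ((S x).card : ℝ) := by
  rw [Fintype.card_piFinset, Nat.cast_prod]

theorem card_pi_range (m : Λ → ℕ) :
    ((Fintype.piFinset fun x => range (m x)).card : ℝ) = ∏ x, (m x : ℝ) := by
  simp only [card_pi, card_range]

theorem mem_pi_range {m ξ : Λ → ℕ} :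
    ξ ∈ (Fintype.piFinset fun x => range (m x)) ↔ ∀ x, ξ x < m x := by
  simp only [Fintype.mem_piFinset, mem_range]

theorem prod_m_pos {m : Λ → ℕ} (hm : ∀ x, 0 < m x) : (0 : ℝ) < ∏ x, (m x : ℝ) :=
  prod_pos fun x _ => Nat.cast_pos.2 (hm x)

theorem avgP_const {m : Λ → ℕ} (hm : ∀ x, 0 < m x) (c : ℝ) : avgP m (fun _ => c) = c := by
  rw [avgP, sum_const, nsmul_eq_mul, card_pi_range, mul_div_cancel_left₀ _ (prod_m_pos hm).ne']
theorem avgP_mono {m : Λ → ℕ} {f g : (Λ → ℕ) → ℝ} (h : ∀ ξ, (∀ x, ξ x < m x) → f ξ ≤ g ξ) :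
    avgP m f ≤ avgP m g :=
  div_le_div_of_nonneg_right (sum_le_sum fun ξ hξ => h ξ (mem_pi_range.1 hξ))
    (prod_nonneg fun _ _ => Nat.cast_nonneg _)
theorem avgP_add (m : Λ → ℕ) (f g : (Λ → ℕ) → ℝ) :
    avgP m (fun ξ => f ξ + g ξ) = avgP m f + avgP m g := by
  rw [avgP, avgP, avgP, sum_add_distrib, add_div]
theorem avgP_mul (m : Λ → ℕ) (c : ℝ) (f : (Λ → ℕ) → ℝ) :
    avgP m (fun ξ => c * f ξ) = c * avgP m f := by
  rw [avgP, avgP, ← mul_sum, mul_div_assoc]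
theorem avgP_sum {ι : Type} (s : Finset ι) (m : Λ → ℕ) (f : ι → (Λ → ℕ) → ℝ) :
    avgP m (fun ξ => ∑ i ∈ s, f i ξ) = ∑ i ∈ s, avgP m (f i) := by
  simp only [avgP]
  rw [sum_comm, sum_div]
theorem avgP_nonneg {m : Λ → ℕ} {f : (Λ → ℕ) → ℝ} (h : ∀ ξ, (∀ x, ξ x < m x) → 0 ≤ f ξ) :
    0 ≤ avgP m f :=
  div_nonneg (sum_nonneg fun ξ hξ => h ξ (mem_pi_range.1 hξ))
    (prod_nonneg fun _ _ => Nat.cast_nonneg _)

/-- Fubini in one coordinate -/
theorem avgP_update {m : Λ → ℕ} (hm : ∀ x, 0 < m x) (x : Λ) (f : (Λ → ℕ) → ℝ) :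
    avgP m f = avgP m fun ξ => avg (m x) fun k => f (Function.update ξ x k) := by
  have h : ∑ p ∈ (Fintype.piFinset fun x => range (m x)) ×ˢ range (m x),
      f (Function.update p.1 x p.2) =
      ∑ p ∈ (Fintype.piFinset fun x => range (m x)) ×ˢ range (m x), f p.1 := by
    have hmem : ∀ p ∈ (Fintype.piFinset fun x => range (m x)) ×ˢ range (m x),
        (Function.update p.1 x p.2, p.1 x) ∈
          (Fintype.piFinset fun x => range (m x)) ×ˢ range (m x) := fun p hp => by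
      rw [mem_product, mem_pi_range, mem_range] at hp ⊢
      refine ⟨fun y => ?_, hp.1 x⟩
      by_cases hy : y = x
      · subst hy; simpa using hp.2
      · simpa [hy] using hp.1 y
    exact sum_nbij' (fun p => (Function.update p.1 x p.2, p.1 x))
      (fun p => (Function.update p.1 x p.2, p.1 x)) hmem hmem (fun p _ => by simp)
      (fun p _ => by simp) fun p _ => rfl
  rw [sum_product, sum_product] at h
  have h0 : (m x : ℝ) ≠ 0 := Nat.cast_ne_zero.2 (hm x).ne'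
  simp only [sum_const, card_range, nsmul_eq_mul, ← mul_sum] at h
  simp only [avgP, avg, ← sum_div, h, mul_div_cancel_left₀ _ h0]

theorem avg_ind {N : ℕ} (hN : 0 < N) : avg N (fun k => if k = 0 then (1 : ℝ) else 0) = 1 / N := by
  rw [avg, sum_ite_eq', if_pos (mem_range.2 hN)]

theorem avgP_ind {m : Λ → ℕ} (hm : ∀ x, 0 < m x) (x : Λ) :
    avgP m (fun ξ => if ξ x = 0 then (1 : ℝ) else 0) = 1 / m x := by
  rw [avgP_update hm x]
  simp only [Function.update_self, avg_ind (hm x), avgP_const hm]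
theorem avgP_ind₂ {m : Λ → ℕ} (hm : ∀ x, 0 < m x) {x y : Λ} (h : x ≠ y) :
    avgP m (fun ξ => (if ξ x = 0 then (1 : ℝ) else 0) * if ξ y = 0 then (1 : ℝ) else 0) =
      1 / m x * (1 / m y) := by
  rw [avgP_update hm y]
  simp only [Function.update_self, Function.update_of_ne h, avg_mul, avg_ind (hm y)]
  simp only [mul_comm _ (1 / (m y : ℝ)), avgP_mul, avgP_ind hm]

/-- independence of functions of disjoint coordinates -/
theorem avgP_indep {m : Λ → ℕ} (hm : ∀ x, 0 < m x) {U U' : Finset Λ} (hU : Disjoint U U')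
    {g g' : (Λ → ℕ) → ℝ} (hg : ∀ ξ ξ', (∀ x ∈ U, ξ x = ξ' x) → g ξ = g ξ')
    (hg' : ∀ ξ ξ', (∀ x ∈ U', ξ x = ξ' x) → g' ξ = g' ξ') :
    avgP m (fun ξ => g ξ * g' ξ) = avgP m g * avgP m g' := by
  set P := Fintype.piFinset fun x => range (m x) with hP
  have h : ∑ p ∈ P ×ˢ P, g p.1 * g' p.2 = ∑ p ∈ P ×ˢ P, g p.1 * g' p.1 := by
    have hmem : ∀ p ∈ P ×ˢ P, (U.piecewise p.1 p.2, U.piecewise p.2 p.1) ∈ P ×ˢ P :=
      fun p hp => by
      rw [mem_product, mem_pi_range, mem_pi_range] at hp ⊢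
      refine ⟨fun y => ?_, fun y => ?_⟩ <;> by_cases hy : y ∈ U <;> simp [hy, hp.1 y, hp.2 y]
    have hinv : ∀ p : (Λ → ℕ) × (Λ → ℕ),
        (U.piecewise (U.piecewise p.1 p.2) (U.piecewise p.2 p.1),
          U.piecewise (U.piecewise p.2 p.1) (U.piecewise p.1 p.2)) = p := fun p => by
      ext y <;> by_cases hy : y ∈ U <;> simp [hy]
    refine sum_nbij' (fun p => (U.piecewise p.1 p.2, U.piecewise p.2 p.1))
      (fun p => (U.piecewise p.1 p.2, U.piecewise p.2 p.1)) hmem hmem (fun p _ => hinv p)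
      (fun p _ => hinv p) fun p _ => ?_
    rw [hg p.1 (U.piecewise p.1 p.2) fun y hy => by simp [hy],
      hg' p.2 (U.piecewise p.1 p.2) fun y hy => by simp [disjoint_right.1 hU hy]]
  rw [sum_product, sum_product] at h
  simp only [sum_const, nsmul_eq_mul, ← mul_sum, ← sum_mul, hP, card_pi_range] at h
  have h0 := (prod_m_pos hm).ne'
  simp only [avgP]
  rw [div_mul_div_comm, h, mul_div_mul_left _ _ h0]

theorem LocA.phi_nonneg {A : Finset Λ} {N : ℕ} {dt : ℝ} {U : Finset Λ} {φ : ℝ}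
    {ch : Option (Λ × ℕ) → ℝ} (h : LocA A N dt U φ ch) :
    0 ≤ φ ∧ ∀ ω, okA A N ω → 0 ≤ ch ω := by
  obtain ⟨φ0, κ, h1, h2, h3, -, -, h6⟩ := h
  refine ⟨(mul_nonneg (h1.trans h2) (Real.exp_pos _).le).trans h6, ?_⟩
  rintro (_ | ⟨y, k⟩) hω
  · exact h1
  · exact h3 y hω.1 k hω.2

theorem LocA.add {A : Finset Λ} {N : ℕ} {dt : ℝ} {U : Finset Λ} {φ ψ : ℝ}
    {ch ch' : Option (Λ × ℕ) → ℝ} (h : LocA A N dt U φ ch) (h' : LocA A N dt U ψ ch') :
    LocA A N dt U (φ + ψ) fun ω => ch ω + ch' ω := by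
  have hφ := h.phi_nonneg.1
  have hψ := h'.phi_nonneg.1
  obtain ⟨a, κ, h1, h2, h3, h4, h5, h6⟩ := h
  obtain ⟨b, κ', g1, g2, g3, g4, g5, g6⟩ := h'
  have ha := h1.trans h2
  have hb := g1.trans g2
  refine ⟨a + b, fun y => a / (a + b) * κ y + b / (a + b) * κ' y, add_nonneg h1 g1,
    add_le_add h2 g2, fun y hy k hk => add_nonneg (h3 y hy k hk) (g3 y hy k hk),
    fun y hy hU k hk => add_le_add (h4 y hy hU k hk) (g4 y hy hU k hk), fun y hy => ?_, ?_⟩
  · rw [avg_add]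
    refine (add_le_add (h5 y hy) (g5 y hy)).trans_eq ?_
    rcases (add_nonneg ha hb).eq_or_lt with h0 | h0
    · have e1 : a = 0 := by linarith
      have e2 : b = 0 := by linarith
      simp [e1, e2]
    · field_simp
      ring
  · rcases (add_nonneg ha hb).eq_or_lt with h0 | h0
    · rw [← h0, zero_mul]; exact add_nonneg hφ hψ
    · have hc := convexOn_exp.2 (Set.mem_univ (dt * ∑ y ∈ A ∩ U, κ y))
        (Set.mem_univ (dt * ∑ y ∈ A ∩ U, κ' y)) (div_nonneg ha h0.le) (div_nonneg hb h0.le)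
        (by field_simp)
      simp only [smul_eq_mul] at hc
      rw [sum_add_distrib, ← mul_sum, ← mul_sum]
      calc _ = (a + b) * Real.exp (a / (a + b) * (dt * ∑ y ∈ A ∩ U, κ y) +
            b / (a + b) * (dt * ∑ y ∈ A ∩ U, κ' y)) := by congr 2; ring
        _ ≤ (a + b) * _ := mul_le_mul_of_nonneg_left hc h0.le
        _ = a * Real.exp (dt * ∑ y ∈ A ∩ U, κ y) + b * Real.exp (dt * ∑ y ∈ A ∩ U, κ' y) := by
          field_simp
        _ ≤ _ := add_le_add h6 g6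

theorem LocA.mul {A : Finset Λ} {N : ℕ} {dt : ℝ} {U U' : Finset Λ} {φ ψ : ℝ}
    {ch ch' : Option (Λ × ℕ) → ℝ} (hU : Disjoint U U') (h : LocA A N dt U φ ch)
    (h' : LocA A N dt U' ψ ch') : LocA A N dt (U ∪ U') (φ * ψ) fun ω => ch ω * ch' ω := by
  have hφ := h.phi_nonneg.1
  obtain ⟨a, κ, h1, h2, h3, h4, h5, h6⟩ := h
  obtain ⟨b, κ', g1, g2, g3, g4, g5, g6⟩ := h'
  have ha := h1.trans h2
  have hb := g1.trans g2
  refine ⟨a * b, fun y => if y ∈ U then κ y else κ' y, mul_nonneg h1 g1,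
    mul_le_mul h2 g2 g1 ha, fun y hy k hk => mul_nonneg (h3 y hy k hk) (g3 y hy k hk),
    fun y hy hU k hk => mul_le_mul (h4 y hy (fun h => hU (mem_union_left _ h)) k hk)
      (g4 y hy (fun h => hU (mem_union_right _ h)) k hk) (g3 y hy k hk) ha, fun y hy => ?_, ?_⟩
  · obtain ⟨hyA, hy⟩ := mem_inter.1 hy
    beta_reduce
    by_cases hyU : y ∈ U
    · rw [if_pos hyU]
      calc _ ≤ avg N fun k => b * ch (some (y, k)) := avg_mono fun k hk => by
            rw [mul_comm b]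
            exact mul_le_mul_of_nonneg_left (g4 y hyA (disjoint_left.1 hU hyU) k hk) (h3 y hyA k hk)
        _ ≤ b * (a * (1 + κ y)) := by
            rw [avg_mul]; exact mul_le_mul_of_nonneg_left (h5 y (mem_inter.2 ⟨hyA, hyU⟩)) hb
        _ = _ := by ring
    · rw [if_neg hyU]
      calc _ ≤ avg N fun k => a * ch' (some (y, k)) := avg_mono fun k hk =>
            mul_le_mul_of_nonneg_right (h4 y hyA hyU k hk) (g3 y hyA k hk)
        _ ≤ a * (b * (1 + κ' y)) := by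
            rw [avg_mul]
            exact mul_le_mul_of_nonneg_left
              (g5 y (mem_inter.2 ⟨hyA, (mem_union.1 hy).resolve_left hyU⟩)) ha
        _ = _ := by ring
  · rw [inter_union_distrib_left, sum_union (hU.mono inter_subset_right inter_subset_right),
      sum_congr rfl fun y hy => if_pos (mem_inter.1 hy).2,
      sum_congr rfl fun y hy => if_neg (disjoint_right.1 hU (mem_inter.1 hy).2), mul_add,
      Real.exp_add, mul_mul_mul_comm]
    exact mul_le_mul h6 g6 (by positivity) hφ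

theorem LocA.mono {A : Finset Λ} {N : ℕ} (hN : 0 < N) {dt : ℝ} {U U' : Finset Λ} {φ : ℝ}
    {ch : Option (Λ × ℕ) → ℝ} (hU : U ⊆ U') (h : LocA A N dt U φ ch) : LocA A N dt U' φ ch := by
  obtain ⟨a, κ, h1, h2, h3, h4, h5, h6⟩ := h
  refine ⟨a, fun y => if y ∈ U then κ y else 0, h1, h2, h3,
    fun y hy hy' => h4 y hy fun h => hy' (hU h), fun y hy => ?_, ?_⟩
  · beta_reduce
    by_cases hyU : y ∈ U
    · rw [if_pos hyU]; exact h5 y (mem_inter.2 ⟨(mem_inter.1 hy).1, hyU⟩)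
    · rw [if_neg hyU, add_zero, mul_one]
      exact (avg_mono fun k hk => h4 y (mem_inter.1 hy).1 hyU k hk).trans_eq (avg_const hN a)
  · rwa [sum_ite_mem, inter_assoc, inter_eq_right.2 hU]

/-- `add`: `φ0+ψ0`, `κ` = weighted mean (if `φ0+ψ0=0` take `κ=0`), convexity of `exp`;
`mul`: `φ0ψ0`, `κ` piecewise; `mono`: extend `κ` by `0`. -/
theorem exists_clsA (A : Finset Λ) (N : ℕ) (hN : 0 < N) {dt : ℝ} (hdt : 0 ≤ dt) :
    ∃ C : Cls Λ (Option (Λ × ℕ)), C.ok = okA A N ∧ C.mem = LocA A N dt := by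
  refine ⟨⟨okA A N, LocA A N dt, LocA.phi_nonneg, fun U c hc => ?_, LocA.add, LocA.mul,
    LocA.mono hN, ?_⟩, rfl, rfl⟩
  · exact ⟨c, fun _ => 0, hc, le_rfl, fun _ _ _ _ => hc, fun _ _ _ _ _ => le_rfl,
      fun _ _ => by rw [avg_const hN, add_zero, mul_one], by simp⟩
  · rintro U φ φ' ch ch' ⟨a, κ, h1, h2, h3, h4, h5, h6⟩ hφ h
    exact ⟨a, κ, (h none trivial).1, (h none trivial).2.trans h2,
      fun y hy k hk => (h (some (y, k)) ⟨hy, hk⟩).1,
      fun y hy hU k hk => (h (some (y, k)) ⟨hy, hk⟩).2.trans (h4 y hy hU k hk),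
      fun y hy => (avg_mono fun k hk =>
        (h (some (y, k)) ⟨(mem_inter.1 hy).1, hk⟩).2).trans (h5 y hy), h6.trans hφ⟩

theorem LocA.ex_le {A : Finset Λ} {N : ℕ} (hN : 0 < N) {dt : ℝ} (hdt : 0 ≤ dt)
    (h1 : dt * A.card ≤ 1) {U : Finset Λ} {φ : ℝ} {ch : Option (Λ × ℕ) → ℝ}
    (h : LocA A N dt U φ ch) : exA A N dt ch ≤ φ := by
  obtain ⟨a, κ, g1, g2, g3, g4, g5, g6⟩ := h
  have h2 : ∑ y ∈ A, avg N (fun k => ch (some (y, k))) ≤
      ∑ y ∈ A, (a + a * if y ∈ U then κ y else 0) := sum_le_sum fun y hy => by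
    by_cases hyU : y ∈ U
    · rw [if_pos hyU]; exact (g5 y (mem_inter.2 ⟨hy, hyU⟩)).trans_eq (by ring)
    · rw [if_neg hyU, mul_zero, add_zero]
      exact (avg_mono fun k hk => g4 y hy hyU k hk).trans_eq (avg_const hN a)
  rw [sum_add_distrib, ← mul_sum, sum_ite_mem, sum_const, nsmul_eq_mul] at h2
  calc exA A N dt ch ≤ (1 - dt * A.card) * a + dt * (A.card * a + a * ∑ y ∈ A ∩ U, κ y) :=
        add_le_add (mul_le_mul_of_nonneg_left g2 (sub_nonneg.2 h1))
          (mul_le_mul_of_nonneg_left h2 hdt)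
    _ = a * (dt * ∑ y ∈ A ∩ U, κ y + 1) := by ring
    _ ≤ a * Real.exp (dt * ∑ y ∈ A ∩ U, κ y) :=
        mul_le_mul_of_nonneg_left (Real.add_one_le_exp _) (g1.trans g2)
    _ ≤ φ := g6

theorem exA_mono {A : Finset Λ} {N : ℕ} {dt : ℝ} (hdt : 0 ≤ dt) (h1 : dt * A.card ≤ 1)
    {f g : Option (Λ × ℕ) → ℝ} (h : ∀ ω, okA A N ω → f ω ≤ g ω) : exA A N dt f ≤ exA A N dt g :=
  add_le_add (mul_le_mul_of_nonneg_left (h none trivial) (sub_nonneg.2 h1))
    (mul_le_mul_of_nonneg_left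
      (sum_le_sum fun y hy => avg_mono fun k hk => h (some (y, k)) ⟨hy, hk⟩) hdt)

/-- `mul`: independence of functions of disjoint coordinates -/
theorem exists_clsB (m : Λ → ℕ) (hm : ∀ x, 0 < m x) :
    ∃ C : Cls Λ (Λ → ℕ), (C.ok = fun ξ => ∀ x, ξ x < m x) ∧ C.mem = LocB m := by
  refine ⟨⟨fun ξ => ∀ x, ξ x < m x, LocB m, ?_, fun U c hc => ?_, ?_, ?_, ?_, ?_⟩, rfl, rfl⟩
  · rintro U φ ch ⟨g, h1, h2, h3⟩
    exact ⟨(avgP_nonneg fun ξ hξ => (h2 ξ hξ).1.trans (h2 ξ hξ).2).trans h3,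
      fun ξ hξ => (h2 ξ hξ).1⟩
  · exact ⟨fun _ => c, fun _ _ _ => rfl, fun _ _ => ⟨hc, le_rfl⟩, (avgP_const hm c).le⟩
  · rintro U φ ψ ch ch' ⟨g, h1, h2, h3⟩ ⟨g', g1, g2, g3⟩
    exact ⟨fun ξ => g ξ + g' ξ, fun ξ ξ' h => by beta_reduce; rw [h1 ξ ξ' h, g1 ξ ξ' h],
      fun ξ hξ => ⟨add_nonneg (h2 ξ hξ).1 (g2 ξ hξ).1, add_le_add (h2 ξ hξ).2 (g2 ξ hξ).2⟩,
      (avgP_add m g g').trans_le (add_le_add h3 g3)⟩
  · rintro U U' φ ψ ch ch' hU ⟨g, h1, h2, h3⟩ ⟨g', g1, g2, g3⟩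
    have p1 : 0 ≤ avgP m g := avgP_nonneg fun ξ hξ => (h2 ξ hξ).1.trans (h2 ξ hξ).2
    have p2 : 0 ≤ avgP m g' := avgP_nonneg fun ξ hξ => (g2 ξ hξ).1.trans (g2 ξ hξ).2
    exact ⟨fun ξ => g ξ * g' ξ, fun ξ ξ' h => by
        beta_reduce
        rw [h1 ξ ξ' fun x hx => h x (mem_union_left _ hx),
          g1 ξ ξ' fun x hx => h x (mem_union_right _ hx)],
      fun ξ hξ => ⟨mul_nonneg (h2 ξ hξ).1 (g2 ξ hξ).1, mul_le_mul (h2 ξ hξ).2 (g2 ξ hξ).2
        (g2 ξ hξ).1 ((h2 ξ hξ).1.trans (h2 ξ hξ).2)⟩,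
      (avgP_indep hm hU h1 g1).trans_le (mul_le_mul h3 g3 p2 (p1.trans h3))⟩
  · rintro U U' φ ch hU ⟨g, h1, h2, h3⟩
    exact ⟨g, fun ξ ξ' h => h1 ξ ξ' fun x hx => h x (hU hx), h2, h3⟩
  · rintro U φ φ' ch ch' ⟨g, h1, h2, h3⟩ hφ h
    exact ⟨g, h1, fun ξ hξ => ⟨(h ξ hξ).1, (h ξ hξ).2.trans (h2 ξ hξ).2⟩, h3.trans hφ⟩

theorem LocB.ex_le {m : Λ → ℕ} (hm : ∀ x, 0 < m x) {U : Finset Λ} {φ : ℝ} {ch : (Λ → ℕ) → ℝ}
    (h : LocB m U φ ch) : avgP m ch ≤ φ := by
  obtain ⟨g, -, h2, h3⟩ := h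
  exact (avgP_mono fun ξ hξ => (h2 ξ hξ).2).trans h3

theorem Cls.sum {Ω : Type} (C : Cls Λ Ω) {ι : Type} (s : Finset ι) {U : Finset Λ} {φ : ι → ℝ}
    {ch : ι → Ω → ℝ} (h : ∀ i ∈ s, C.mem U (φ i) (ch i)) :
    C.mem U (∑ i ∈ s, φ i) fun ω => ∑ i ∈ s, ch i ω := by
  classical
  induction s using Finset.induction_on with
  | empty => simpa using C.const U 0 le_rfl
  | insert i s hi ih =>
    simp only [sum_insert hi]
    exact C.add (h i (mem_insert_self _ _)) (ih fun j hj => h j (mem_insert_of_mem hj))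

theorem Cls.prod {Ω : Type} (C : Cls Λ Ω) {ι : Type} [DecidableEq ι] (s : Finset ι)
    {U : ι → Finset Λ} {V : Finset Λ} {φ : ι → ℝ} {ch : ι → Ω → ℝ}
    (hU : ∀ i ∈ s, ∀ j ∈ s, i ≠ j → Disjoint (U i) (U j)) (hV : ∀ i ∈ s, U i ⊆ V)
    (h : ∀ i ∈ s, C.mem (U i) (φ i) (ch i)) :
    C.mem V (∏ i ∈ s, φ i) fun ω => ∏ i ∈ s, ch i ω := by
  refine C.mono (U := s.biUnion U) (biUnion_subset.2 hV) ?_
  clear hV
  induction s using Finset.induction_on with
  | empty => simpa using C.const ∅ 1 zero_le_one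
  | insert i s hi ih =>
    simp only [prod_insert hi, biUnion_insert]
    refine C.mul ((disjoint_biUnion_right _ _ _).2 fun j hj => hU i (mem_insert_self _ _) j
      (mem_insert_of_mem hj) fun e => hi (e ▸ hj)) (h i (mem_insert_self _ _))
      (ih (fun j hj k hk => hU j (mem_insert_of_mem hj) k (mem_insert_of_mem hk))
        fun j hj => h j (mem_insert_of_mem hj))

/-- average over cells -/
noncomputable def cavg (S : Λ → Finset ℕ) (f : (Λ → ℕ) → ℝ) : ℝ :=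
  (∑ ω ∈ Fintype.piFinset S, f ω) / ∏ x, ((S x).card : ℝ)

theorem cavg_le_one {S : Λ → Finset ℕ} {f : (Λ → ℕ) → ℝ} (h : ∀ ω, f ω ≤ 1) : cavg S f ≤ 1 := by
  refine div_le_one_of_le₀ ((sum_le_card_nsmul _ _ 1 fun ω _ => h ω).trans_eq ?_)
    (prod_nonneg fun _ _ => Nat.cast_nonneg _)
  rw [nsmul_eq_mul, mul_one, card_pi]
/-- revealing the full digit of one site -/
theorem cavg_close {S : Λ → Finset ℕ} {y : Λ} {N : ℕ} (hN : 0 < N) (hy : S y = range N)
    (f : (Λ → ℕ) → ℝ) : cavg S f = avg N fun k => cavg (Function.update S y {k}) f := by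
  have h1 : ∀ k, ∏ x, ((Function.update S y {k} x).card : ℝ) =
      ∏ x ∈ univ.erase y, ((S x).card : ℝ) := fun k => by
    rw [← mul_prod_erase _ _ (mem_univ y), Function.update_self, card_singleton, Nat.cast_one,
      one_mul]
    exact prod_congr rfl fun x hx => by rw [Function.update_of_ne (ne_of_mem_erase hx)]
  have h2 : ∑ k ∈ range N, ∑ ω ∈ Fintype.piFinset (Function.update S y {k}), f ω =
      ∑ ω ∈ Fintype.piFinset S, f ω := by
    rw [← sum_fiberwise_of_maps_to (s := Fintype.piFinset S) (t := range N) (g := fun ω => ω y)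
      fun ω hω => hy ▸ Fintype.mem_piFinset.1 hω y]
    refine sum_congr rfl fun k hk => sum_congr ?_ fun _ _ => rfl
    ext ω
    simp only [Fintype.mem_piFinset, mem_filter]
    refine ⟨fun h => ?_, fun h x => ?_⟩
    · have h3 : ω y = k := by simpa using h y
      refine ⟨fun x => ?_, h3⟩
      by_cases hx : x = y
      · rw [hx, h3, hy]; exact hk
      · simpa [hx] using h x
    · by_cases hx : x = y
      · rw [hx, Function.update_self, mem_singleton]; exact h.2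
      · simpa [hx] using h.1 x
  simp only [cavg, avg, h1, ← sum_div, h2]
  rw [← mul_prod_erase _ _ (mem_univ y), hy, card_range, div_div, mul_comm]
/-- refining all cells at once -/
theorem cavg_refine (lo m len : Λ → ℕ) (hm : ∀ x, 0 < m x) (hl : ∀ x, 0 < len x)
    (f : (Λ → ℕ) → ℝ) :
    cavg (fun x => Ico (lo x) (lo x + m x * len x)) f =
      avgP m fun ξ => cavg (fun x => Ico (lo x + ξ x * len x) (lo x + ξ x * len x + len x)) f := by
  have h2 : ∑ ξ ∈ Fintype.piFinset fun x => range (m x), ∑ ω ∈ Fintype.piFinset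
      fun x => Ico (lo x + ξ x * len x) (lo x + ξ x * len x + len x), f ω =
      ∑ ω ∈ Fintype.piFinset fun x => Ico (lo x) (lo x + m x * len x), f ω := by
    rw [← sum_fiberwise_of_maps_to (s := Fintype.piFinset fun x => Ico (lo x) (lo x + m x * len x))
      (t := Fintype.piFinset fun x => range (m x)) (g := fun ω x => (ω x - lo x) / len x)
      fun ω hω => mem_pi_range.2 fun x => by
        have h := mem_Ico.1 (Fintype.mem_piFinset.1 hω x)
        rw [Nat.div_lt_iff_lt_mul (hl x)]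
        omega]
    refine sum_congr rfl fun ξ hξ => sum_congr ?_ fun _ _ => rfl
    ext ω
    simp only [Fintype.mem_piFinset, mem_filter, mem_Ico, funext_iff, ← forall_and]
    refine forall_congr' fun x => ?_
    have h3 : (ξ x + 1) * len x ≤ m x * len x :=
      Nat.mul_le_mul_right _ (mem_pi_range.1 hξ x)
    rw [Nat.div_eq_iff (hl x)]
    have := hl x
    rw [add_mul, one_mul] at h3
    omega
  simp only [cavg, avgP, Nat.card_Ico, add_tsub_cancel_left, ← sum_div, h2, Nat.cast_mul,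
    prod_mul_distrib]
  rw [div_div, mul_comm]

end Crest.Agent.N334.AC
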