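import Crest.Agent.N334.AC.L.Basic
import Crest.Agent.N334.AC.Lev
import Crest.Agent.N334.AC.L.CT
import Crest.Agent.N334.AC.Cls
import Crest.Agent.N334.AC.F.Defs
import Crest.Agent.N334.AC.L.Close
import Crest.Agent.N334.AC.F.Cls
import Crest.Agent.N334.AC.Geo

-- ▼ part N334/AC/L/Lev
section

/-! # S0520 part L: leverage lemma (leaf).
Greedy. Scale `s_b = 1` on `B`, `s_a = √(mu K a)` (`μ1 ≤ mu ≤ 1`) on `Cand`; `W_Z` = rows outside `B ∪ Z`, columns
`b ∈ B ∪ Z` divided by `s_b`; `Φ = log det (W_Zᴴ W_Z + ζ²)`. If the normalised leverage of `a` exceeds `ε`, move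
`a` to `Z`: deleting the row multiplies `det` by `≤ 1-ε`, the new column by `≤ 1+ζ²`. `Φ_0 ≤ n ζ²`.
Lower bound: by Ward the Gram matrix of the `Z`-columns over rows outside `Z` is `1+E`, `‖E‖ ≤ 5Je/μ1 ≤ ε/8`;
on vectors supported in `Z` and killed by the rows in `B` (dimension `≥ |Z| - n`) the form is `≥ 1-ε/8`, so at most
`2n` eigenvalues are below `1-ε/8`, all are `≥ ζ²` (or helper74's rank trick, note 289). Hence `|Z| < J`.
A row of leverage `> ε` has an entry `> ε ζ² μ1/(n+J)` in a column of `B ∪ Z`, which gives the bound on `D`.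

Typed proof (helper19): `AC.leverage` (helper74) gives `Z`; by pigeonhole some window
`(D0 + j s, D0 + (j+1) s]`, `j ≤ J`, misses `D(Z)`; keep the part of `Z` below the window. -/

set_option autoImplicit false

open Finset Complex
open scoped Matrix.Norms.L2Operator Matrix

namespace Crest.Agent.N334.AC

variable {ι : Type} [Fintype ι] [DecidableEq ι] {A : Matrix ι ι ℂ} {w : ι → ℂ}

namespace Lv

lemma pt {k y r : ℂ} {m ρ : ℝ} (hk : ‖k‖ ≤ 1) (hm : k.im = ‖k‖ ^ 2 + m) (hr : ‖r‖ ≤ ρ) :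
    m * ‖y‖ ^ 2 - 3 * ρ * ‖y‖ - ρ ^ 2 ≤ (star y * (k * y + r)).im - ‖k * y + r‖ ^ 2 := by
  have h1 : (star y * (k * y + r)).im = k.im * ‖y‖ ^ 2 + (star y * r).im := by
    rw [Complex.sq_norm, Complex.normSq_apply]
    simp
    ring
  have h2 : -(ρ * ‖y‖) ≤ (star y * r).im := by
    have := (abs_le.1 (Complex.abs_im_le_norm (star y * r))).1
    rw [norm_mul, norm_star] at this
    nlinarith [norm_nonneg y]
  have h3 : ‖k * y + r‖ ≤ ‖k‖ * ‖y‖ + ρ := (norm_add_le _ _).trans (by rw [norm_mul]; linarith)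
  have h4 : ‖k * y + r‖ ^ 2 ≤ (‖k‖ * ‖y‖ + ρ) ^ 2 := by gcongr
  have h5 : ‖k‖ * (ρ * ‖y‖) ≤ 1 * (ρ * ‖y‖) :=
    mul_le_mul_of_nonneg_right hk (mul_nonneg ((norm_nonneg r).trans hr) (norm_nonneg y))
  rw [h1, hm]
  nlinarith

lemma bd (h : Adm A w) : Bd (Km A w) 1 := (bd_iff_norm zero_le_one).2 h.norm_K

lemma mu_nonneg (K : Matrix ι ι ℂ) (a : ι) : 0 ≤ mu K a := sum_nonneg fun _ _ => by positivity

lemma mu_le (h : Adm A w) (a : ι) : mu (Km A w) a ≤ 1 :=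
  (sum_le_sum_of_subset_of_nonneg (subset_univ _) fun _ _ _ => by positivity).trans
    (((bd h).row a).trans_eq (one_pow 2))

lemma im_diag (h : Adm A w) (a : ι) : (Km A w a a).im = ‖Km A w a a‖ ^ 2 + mu (Km A w) a := by
  rw [mu, add_sum_erase _ (fun b => ‖Km A w a b‖ ^ 2) (mem_univ a), h.K_row, h.K_diag,
    Complex.im_ofReal_mul]

omit [Fintype ι] in
lemma cut_of_supp {T : Finset ι} {x : ι → ℂ} (hx : Supp x T) : cut T x = x := by
  funext i
  by_cases hi : i ∈ T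
  · simp [cut, hi]
  · simp [cut, hi, hx i hi]

lemma mulVec_cut (K : Matrix ι ι ℂ) (T : Finset ι) (x : ι → ℂ) (a : ι) :
    (K *ᵥ cut T x) a = ∑ b ∈ T, K a b * x b := by
  simp [Matrix.mulVec, dotProduct, cut]

lemma low (h : Adm A w) {Z : Finset ι} {e : ℝ} (he : 0 ≤ e)
    (hent : ∀ a ∈ Z, ∀ a' ∈ Z, a ≠ a' → ‖Km A w a a'‖ ≤ e) (x : ι → ℂ) :
    ∑ z ∈ Z, mu (Km A w) z * ‖x z‖ ^ 2 - (3 * (e * Z.card) + (e * Z.card) ^ 2) * ∑ z ∈ Z, ‖x z‖ ^ 2 ≤
      nsq (mask Zᶜ Z (Km A w) *ᵥ x) := by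
  obtain ⟨S, hS⟩ : ∃ S, S = ∑ z ∈ Z, ‖x z‖ := ⟨_, rfl⟩
  have h1 : S ^ 2 ≤ Z.card * ∑ z ∈ Z, ‖x z‖ ^ 2 := hS ▸ sq_sum_le_card_mul_sum_sq
  have h2 : nsq (mask Zᶜ Z (Km A w) *ᵥ x) = ∑ c ∈ Z, ((star (x c) * (Km A w *ᵥ cut Z x) c).im -
      ‖(Km A w *ᵥ cut Z x) c‖ ^ 2) := by
    have h3 := nsq_cut_add Z (Km A w *ᵥ cut Z x)
    have h4 : star (cut Z x) ⬝ᵥ Km A w *ᵥ cut Z x = ∑ c ∈ Z, star (x c) * (Km A w *ᵥ cut Z x) c := by
      rw [dotProduct, ← sum_subset (subset_univ Z) fun i _ hi => by simp [cut, hi]]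
      exact sum_congr rfl fun i hi => by simp [cut, hi]
    rw [h.K_ward, h4, nsq_cut, Complex.im_sum] at h3
    rw [mask_mulVec, sum_sub_distrib]
    linarith
  have h3 : ∀ c ∈ Z, mu (Km A w) c * ‖x c‖ ^ 2 - 3 * (e * S) * ‖x c‖ - (e * S) ^ 2 ≤
      (star (x c) * (Km A w *ᵥ cut Z x) c).im - ‖(Km A w *ᵥ cut Z x) c‖ ^ 2 := fun c hc => by
    rw [mulVec_cut, ← add_sum_erase _ _ hc]
    refine pt ((bd h).entry zero_le_one c c) (im_diag h c) ((norm_sum_le _ _).trans ?_)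
    rw [hS, mul_sum]
    refine (sum_le_sum fun b hb => ?_).trans
      (sum_le_sum_of_subset_of_nonneg (erase_subset c Z) fun _ _ _ => by positivity)
    rw [norm_mul]
    exact mul_le_mul_of_nonneg_right
      (hent c hc b (mem_of_mem_erase hb) (ne_of_mem_erase hb).symm) (norm_nonneg _)
  have h4 := sum_le_sum h3
  rw [sum_sub_distrib, sum_sub_distrib, ← mul_sum, ← hS, sum_const, nsmul_eq_mul] at h4
  have h5 := mul_le_mul_of_nonneg_left h1 (show 0 ≤ 3 * e + e ^ 2 * Z.card by positivity)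
  rw [h2]
  nlinarith

lemma gap (Z : Finset ι) {J : ℕ} (hZ : Z.card ≤ J) (D : ι → ℕ) (D0 s : ℕ) :
    ∃ j ≤ J, ∀ z ∈ Z, D z ≤ D0 + j * s ∨ D0 + j * s + s < D z := by
  by_contra hc
  push Not at hc
  have : Nonempty ι := ⟨(hc 0 J.zero_le).choose⟩
  choose! f hf h1 h2 using hc
  have : (range (J + 1)).card ≤ Z.card := by
    refine card_le_card_of_injOn f (fun j hj => hf j (Nat.lt_succ_iff.1 (mem_range.1 hj)))
      fun i hi j hj e => ?_
    have hi := Nat.lt_succ_iff.1 (mem_range.1 hi)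
    have hj := Nat.lt_succ_iff.1 (mem_range.1 hj)
    have a1 := h1 i hi
    have a2 := h2 i hi
    have a3 := h1 j hj
    have a4 := h2 j hj
    rw [e] at a1 a2
    rcases lt_trichotomy i j with l | l | l
    · have := Nat.mul_le_mul_right s (Nat.succ_le_of_lt l)
      rw [Nat.succ_mul] at this
      omega
    · exact l
    · have := Nat.mul_le_mul_right s (Nat.succ_le_of_lt l)
      rw [Nat.succ_mul] at this
      omega
  rw [card_range] at this
  omega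

lemma levD_of_le {K : Matrix ι ι ℂ} {T T' : Finset ι} {ε ζ : ℝ} {a : ι} (hε : 0 ≤ ε) (hT : T' ⊆ T)
    (ha : a ∉ T) (h : LevLe K ζ T a ε) : LevD K T' ε ζ a := fun ξ hξ => by
  have h1 := h ξ
  rw [mask_mulVec, cut_of_supp (T := T) fun i hi => hξ i (mt (@hT i) hi), nsq_cut] at h1
  simp only [cut, mem_compl, ha, not_false_eq_true, if_true] at h1
  refine h1.trans (mul_le_mul_of_nonneg_left (add_le_add_left
    (sum_le_sum_of_subset_of_nonneg (fun i hi => ?_) fun _ _ _ => by positivity) _) hε)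
  exact mem_sdiff.2 ⟨mem_univ _, mt (@hT i) (mem_compl.1 hi)⟩

lemma levD_of_mass {K : Matrix ι ι ℂ} {T : Finset ι} {ε ζ : ℝ} {a : ι} (hε : 0 ≤ ε)
    (h : ∑ b ∈ T, ‖K a b‖ ^ 2 ≤ ε * ζ ^ 2) : LevD K T ε ζ a := fun ξ hξ => by
  have h1 : (K *ᵥ ξ) a = cut T (K a) ⬝ᵥ ξ := by
    rw [← cut_of_supp hξ, mulVec_cut, cut_of_supp hξ]
    simp [dotProduct, cut]
  have h2 := cs' (cut T (K a)) ξ
  rw [nsq_cut, ← h1] at h2
  have h3 := mul_le_mul_of_nonneg_right h (nsq_nonneg ξ)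
  have h4 : 0 ≤ ε * ∑ x ∈ univ \ T, ‖(K *ᵥ ξ) x‖ ^ 2 := by positivity
  linarith

end Lv

open Lv in
theorem Adm.leverage (h : Adm A w) {B Cand : Finset ι} (hd : Disjoint B Cand) {ε ζ e μ1 : ℝ} {J : ℕ}
    (hε : 0 < ε) (hε1 : ε ≤ 1 / 2) (hζ : 0 < ζ) (hζ1 : 2 * ζ ^ 2 ≤ ε) (he : 0 ≤ e) (hμ : 0 < μ1)
    (hmu : ∀ a ∈ Cand, μ1 ≤ mu (Km A w) a)
    (hent : ∀ a ∈ Cand, ∀ a' ∈ Cand, a ≠ a' → ‖Km A w a a'‖ ≤ e)
    (hJ : 20 * B.card * Real.log (2 / ζ) < ε * J) (hJe : 40 * J * e ≤ ε * μ1)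
    {D : ι → ℕ} {D0 s : ℕ} (hD0 : ∀ b ∈ B, D b ≤ D0)
    (hD : ∀ a ∈ Cand, ∀ b ∈ B ∪ Cand, D b + s < D a →
      ‖Km A w a b‖ ^ 2 * (B.card + J) ≤ ε * ζ ^ 2 * μ1) :
    ∃ Z ⊆ Cand, Z.card ≤ J ∧ (∀ z ∈ Z, D z ≤ D0 + J * s) ∧
      ∀ a ∈ Cand \ Z, LevD (Km A w) (B ∪ Z) ε ζ a := by
  have hζ2 : ζ ≤ 1 := by nlinarith
  have hlog : 0 ≤ Real.log (2 / ζ) := Real.log_nonneg ((one_le_div hζ).2 (by linarith))
  have hB : 0 ≤ B.card * Real.log (2 / ζ) := by positivity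
  obtain ⟨Z, hZ, hc, hl⟩ := AC.leverage (bd h) B Cand hd hζ hζ2 hε (by linarith) J (mu (Km A w))
    (mu_nonneg _) (fun a _ => (sum_congr rfl fun c _ => by rw [h.K_sym]).le)
    (fun Z hZ hc x => by
      refine le_trans ?_ (low h he (fun a ha b hb => hent a (hZ ha) b (hZ hb)) x)
      rcases Z.eq_empty_or_nonempty with rfl | ⟨a, ha⟩
      · simp
      have h1 : μ1 ≤ 1 := (hmu a (hZ ha)).trans (mu_le h a)
      have h2 : e * Z.card ≤ e * J := by gcongr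
      have h3 : 0 ≤ e * Z.card := by positivity
      have h4 : ε * μ1 ≤ 1 := by nlinarith
      have h5 : 3 * (e * Z.card) + (e * Z.card) ^ 2 ≤ ε / 2 * μ1 := by nlinarith
      have h6 : μ1 * ∑ z ∈ Z, ‖x z‖ ^ 2 ≤ ∑ z ∈ Z, mu (Km A w) z * ‖x z‖ ^ 2 := by
        rw [mul_sum]
        exact sum_le_sum fun z hz => mul_le_mul_of_nonneg_right (hmu z (hZ hz)) (sq_nonneg _)
      have h7 := mul_le_mul_of_nonneg_right h5
        (show 0 ≤ ∑ z ∈ Z, ‖x z‖ ^ 2 from sum_nonneg fun _ _ => sq_nonneg _)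
      nlinarith)
    (by
      have h1 : Real.log (2 / ζ ^ 2) ≤ 2 * Real.log (2 / ζ) := by
        rw [show 2 * Real.log (2 / ζ) = Real.log ((2 / ζ) ^ 2) by rw [Real.log_pow]; norm_num,
          div_pow]
        gcongr
        norm_num
      have h2 := mul_le_mul_of_nonneg_left h1 (Nat.cast_nonneg (α := ℝ) B.card)
      nlinarith)
  obtain ⟨j, hj, hg⟩ := gap Z hc D D0 s
  refine ⟨Z.filter fun z => D z ≤ D0 + j * s, (filter_subset _ _).trans hZ,
    (card_filter_le _ _).trans hc, fun z hz => (mem_filter.1 hz).2.trans (by gcongr),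
    fun a ha => ?_⟩
  obtain ⟨ha, ha'⟩ := mem_sdiff.1 ha
  by_cases haZ : a ∈ Z
  · have h1 : D0 + j * s + s < D a := (hg a haZ).resolve_left fun h' => ha' (mem_filter.2 ⟨haZ, h'⟩)
    have hJ0 : (0 : ℝ) < B.card + J := by
      have : (0 : ℝ) < J := (mul_pos_iff_of_pos_left hε).1 (by linarith)
      positivity
    refine levD_of_mass hε.le (le_of_mul_le_mul_right ?_ hJ0)
    have h2 : ε * ζ ^ 2 * μ1 ≤ ε * ζ ^ 2 :=
      mul_le_of_le_one_right (by positivity) ((hmu a ha).trans (mu_le h a))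
    rw [sum_mul]
    refine (sum_le_card_nsmul _ _ (ε * ζ ^ 2) fun b hb => (hD a ha b ?_ ?_).trans h2).trans ?_
    · exact union_subset_union_right ((filter_subset _ _).trans hZ) hb
    · rcases mem_union.1 hb with hb | hb
      · have := hD0 b hb
        omega
      · have := (mem_filter.1 hb).2
        omega
    · rw [nsmul_eq_mul, mul_comm]
      refine mul_le_mul_of_nonneg_left ?_ (by positivity)
      exact_mod_cast (card_union_le _ _).trans
        (Nat.add_le_add_left ((card_filter_le _ _).trans hc) _)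
  · exact levD_of_le hε.le (union_subset_union_right (filter_subset _ _))
      (fun h' => (mem_union.1 h').elim (fun hb => disjoint_left.1 hd hb ha) haZ) (hl a ha haZ)

/-- the mass of a row of small leverage on the columns is small -/
lemma Adm.lev_mass (h : Adm A w) {B : Finset ι} {ε ζ : ℝ} {a : ι} (hε : 0 ≤ ε) (hζ : ζ ^ 2 ≤ 1)
    (ha : LevD (Km A w) B ε ζ a) : ∑ b ∈ B, ‖Km A w a b‖ ^ 2 ≤ 2 * ε := by
  obtain ⟨m, hm⟩ : ∃ m, m = ∑ b ∈ B, ‖Km A w a b‖ ^ 2 := ⟨_, rfl⟩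
  have h0 : 0 ≤ m := hm ▸ sum_nonneg fun _ _ => sq_nonneg _
  have h1 := ha (cut B (star (Km A w a))) fun i hi => by simp [cut, hi]
  have h2 : nsq (cut B (star (Km A w a))) = m := by rw [nsq_cut, hm]; simp
  have h3 : (Km A w *ᵥ cut B (star (Km A w a))) a = (m : ℂ) := by
    rw [Lv.mulVec_cut, hm]
    simp [Complex.mul_conj']
  have h4 : ∑ x ∈ univ \ B, ‖(Km A w *ᵥ cut B (star (Km A w a))) x‖ ^ 2 ≤ m :=
    (sum_le_sum_of_subset_of_nonneg (subset_univ _) fun _ _ _ => sq_nonneg _).trans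
      ((Lv.bd h _).trans_eq (by rw [h2, one_pow, one_mul]))
  rw [h2, h3, Complex.norm_real, Real.norm_of_nonneg h0] at h1
  rw [← hm]
  have h5 : ζ ^ 2 * m ≤ m := mul_le_of_le_one_left h0 hζ
  have h6 : m * m ≤ 2 * ε * m := by nlinarith
  rcases h0.eq_or_lt with h7 | h7
  · rw [← h7]; positivity
  · exact le_of_mul_le_mul_right h6 h7

end Crest.Agent.N334.AC
end

-- ▼ part N334/AC/L/Rel1
section

/-! # S0520 part L: simultaneous closing of far clusters (leaves Rel1 = `Rel.exists_T`, `Rel.ref`, `Rel.far`;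
Rel2 = `Rel.row`, `Rel.mass`).
`U = diag (v - w)` on `B'' = ⋃ B c`, `T_c = U - U G_c U` on `B c` (`‖T_c‖ ≤ 3/η`, `T_c (1 + G U)… `: check
`T_c = U (1 + G_{cc} U)⁻¹`), `T_d = ∑ T_c`, `E` = off-block part of `G` on `B''`, `T = (1 + T_d E)⁻¹ T_d`,
`G' = G - G T G`. Twisted bounds at rate `θ'`: `T_d ≤ K1`, `E ≤ Ag S e^{-θR}` (`TW.of_entry`), `T ≤ 2K1`,
`T - T_d = -T_d E T`. Rel2: off `B''`, `K' - K = -K Y` with `Y = γ^{-1/2} T γ^{-1/2} K`, `‖Y‖ ≤ 6/(η g)`,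
`‖K'-K‖ ≤ 2`; for a row in `nbhd (B c) R` only the rows `B c` of `Y` matter, `‖K_{·,B c} Y_c‖ ≤ 3` on the rows outside
`B c`; apply `LevD` to every column of `Y_c` after testing the row against a unit vector; `hs_le_card` for the mass. -/

set_option autoImplicit false

open Finset Complex
open scoped Matrix.Norms.L2Operator Matrix

namespace Crest.Agent.N334.AC

variable {d M : ℕ} [NeZero M]

/-- data of a release -/
structure Rel (A : Matrix (Tor d M) (Tor d M) ℂ) (w : Tor d M → ℂ) (O Cs : Finset (Tor d M))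
    (B : Tor d M → Finset (Tor d M)) (v : Tor d M → ℝ) (θ θ' Ag η g K1 tn : ℝ) (Dm R : ℕ) : Prop where
  adm : Adm A w
  hd : 1 ≤ d
  ports : ∀ x, gam w x ≠ 0 → x ∈ O
  gam_le : ∀ x, gam w x ≤ 1
  tw : TW θ Ag (cmp (Gm A w) O)
  θ0 : 0 < θ'
  θ1 : 4 * θ' ≤ θ
  θ2 : θ ≤ 1
  Ag1 : 1 ≤ Ag
  η0 : 0 < η
  η1 : η ≤ 1
  g0 : 0 < g
  g1 : g ≤ 1
  gam_ge : ∀ c ∈ Cs, ∀ x ∈ B c, g ≤ gam w x
  diam : ∀ c ∈ Cs, B c ⊆ tball c Dm
  iso : ∀ c ∈ Cs, ∀ c' ∈ Cs, c ≠ c' → ∀ x ∈ B c, ∀ x' ∈ B c', 4 * R < tdist x x'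
  u_le : ∀ c ∈ Cs, ∀ x ∈ B c, ‖(v x : ℂ) - w x‖ ≤ 1
  good : ∀ c ∈ Cs, Adm A (wCl w (B c) v) ∧ ‖cmp (Gm A (wCl w (B c) v)) (B c)‖ ≤ 2 / η
  hK1 : Real.exp (2 * θ' * Dm) * (3 / η) ≤ K1
  htn : 40 * vol d M (Dm + R) * Ag ^ 3 * K1 ^ 2 * (12 * d / θ) ^ (2 * d) / g ^ 2 *
    Real.exp (-θ * R / 2) ≤ tn
  tn1 : tn ≤ 1 / 4

variable {A : Matrix (Tor d M) (Tor d M) ℂ} {w : Tor d M → ℂ} {O Cs : Finset (Tor d M)}
  {B : Tor d M → Finset (Tor d M)} {v : Tor d M → ℝ} {θ θ' Ag η g K1 tn : ℝ} {Dm R : ℕ}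

namespace Rel1

section Gen

variable {ι : Type} [Fintype ι] [DecidableEq ι]

/-- coordinate projection -/
def pr (Q : Finset ι) : Matrix ι ι ℂ := Matrix.diagonal fun x => if x ∈ Q then 1 else 0

lemma cmp_eq (X : Matrix ι ι ℂ) (Q : Finset ι) : cmp X Q = pr Q * X * pr Q := by
  ext a b
  simp only [cmp, pr, Matrix.mul_diagonal, Matrix.diagonal_mul]
  by_cases ha : a ∈ Q <;> by_cases hb : b ∈ Q <;> simp [ha, hb]

lemma pr_mul_apply (Q : Finset ι) (X : Matrix ι ι ℂ) (a b : ι) :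
    (pr Q * X) a b = if a ∈ Q then X a b else 0 := by
  simp only [pr, Matrix.diagonal_mul]
  split_ifs <;> simp

omit [DecidableEq ι] in
lemma triple_congr {X X' T Y Y' : Matrix ι ι ℂ} {a b : ι}
    (h : ∀ x y, T x y ≠ 0 → X a x = X' a x ∧ Y y b = Y' y b) :
    (X * T * Y) a b = (X' * T * Y') a b := by
  simp only [Matrix.mul_apply, sum_mul]
  refine sum_congr rfl fun y _ => sum_congr rfl fun x _ => ?_
  by_cases h0 : T x y = 0
  · simp [h0]
  · rw [(h x y h0).1, (h x y h0).2]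

omit [DecidableEq ι] in
lemma wt_mul (θ : ℝ) (φ : ι → ℝ) (X Y : Matrix ι ι ℂ) : wt θ φ (X * Y) = wt θ φ X * wt θ φ Y := by
  ext a b
  simp only [wt, Matrix.mul_apply, mul_sum]
  refine sum_congr rfl fun x _ => ?_
  have : Real.exp (θ * (φ a - φ b)) = Real.exp (θ * (φ a - φ x)) * Real.exp (θ * (φ x - φ b)) := by
    rw [← Real.exp_add]; congr 1; ring
  rw [this]; push_cast; ring

omit [Fintype ι] [DecidableEq ι] in
lemma wt_sub (θ : ℝ) (φ : ι → ℝ) (X Y : Matrix ι ι ℂ) : wt θ φ (X - Y) = wt θ φ X - wt θ φ Y := by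
  ext a b
  simp only [wt, Matrix.sub_apply, mul_sub]

omit [Fintype ι] [DecidableEq ι] in
lemma wt_neg (θ : ℝ) (φ : ι → ℝ) (X : Matrix ι ι ℂ) : wt θ φ (-X) = -wt θ φ X := by
  ext a b
  simp only [wt, Matrix.neg_apply, mul_neg]

omit [Fintype ι] [DecidableEq ι] in
lemma wt_sum {κ : Type} (θ : ℝ) (φ : ι → ℝ) (s : Finset κ) (X : κ → Matrix ι ι ℂ) :
    wt θ φ (∑ c ∈ s, X c) = ∑ c ∈ s, wt θ φ (X c) := by
  ext a b
  simp only [wt, Matrix.sum_apply, mul_sum]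

omit [Fintype ι] in
lemma cmp_wt (θ : ℝ) (φ : ι → ℝ) {X : Matrix ι ι ℂ} {Q : Finset ι} (h : cmp X Q = X) :
    cmp (wt θ φ X) Q = wt θ φ X := by
  ext a b
  have := congrFun (congrFun h a) b
  simp only [cmp, wt] at this ⊢
  split_ifs with h1
  · rfl
  · rw [if_neg h1] at this; rw [← this, mul_zero]

omit [Fintype ι] in
lemma mem_of_ne {X : Matrix ι ι ℂ} {Q : Finset ι} (h : cmp X Q = X) {a b : ι} (h0 : X a b ≠ 0) :
    a ∈ Q ∧ b ∈ Q := by
  by_contra h1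
  have := congrFun (congrFun h a) b
  simp only [cmp, if_neg h1] at this
  exact h0 this.symm

omit [Fintype ι] in
lemma cmp_of_mem {X : Matrix ι ι ℂ} {Q : Finset ι} (h : ∀ a b, X a b ≠ 0 → a ∈ Q ∧ b ∈ Q) :
    cmp X Q = X := by
  ext a b
  simp only [cmp]
  split_ifs with h1
  · rfl
  · by_contra h2
    exact h1 (h a b (Ne.symm h2))

/-- twisting a localized matrix -/
lemma norm_wt_le {θ : ℝ} (hθ : 0 ≤ θ) {φ : ι → ℝ} {X : Matrix ι ι ℂ} {Q : Finset ι}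
    (h : cmp X Q = X) {c D : ℝ} (hD : ∀ x ∈ Q, |φ x - c| ≤ D) :
    ‖wt θ φ X‖ ≤ Real.exp (2 * θ * D) * ‖X‖ := by
  have e : wt θ φ X =
      Matrix.diagonal (fun x => if x ∈ Q then (Real.exp (θ * (φ x - c)) : ℂ) else 0) * X *
        Matrix.diagonal (fun x => if x ∈ Q then (Real.exp (θ * (c - φ x)) : ℂ) else 0) := by
    ext a b
    simp only [wt, Matrix.mul_diagonal, Matrix.diagonal_mul]
    by_cases h0 : X a b = 0
    · simp [h0]
    · obtain ⟨ha, hb⟩ := mem_of_ne h h0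
      have : Real.exp (θ * (φ a - φ b)) = Real.exp (θ * (φ a - c)) * Real.exp (θ * (c - φ b)) := by
        rw [← Real.exp_add]; congr 1; ring
      rw [if_pos ha, if_pos hb, this]; push_cast; ring
  have h1 : ‖Matrix.diagonal (fun x => if x ∈ Q then (Real.exp (θ * (φ x - c)) : ℂ) else 0)‖ ≤
      Real.exp (θ * D) := by
    refine norm_diagonal_le (Real.exp_pos _).le fun x => ?_
    split_ifs with hx
    · rw [Complex.norm_real, Real.norm_of_nonneg (Real.exp_pos _).le, Real.exp_le_exp]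
      exact mul_le_mul_of_nonneg_left (abs_le.1 (hD x hx)).2 hθ
    · simpa using (Real.exp_pos _).le
  have h2 : ‖Matrix.diagonal (fun x => if x ∈ Q then (Real.exp (θ * (c - φ x)) : ℂ) else 0)‖ ≤
      Real.exp (θ * D) := by
    refine norm_diagonal_le (Real.exp_pos _).le fun x => ?_
    split_ifs with hx
    · rw [Complex.norm_real, Real.norm_of_nonneg (Real.exp_pos _).le, Real.exp_le_exp]
      exact mul_le_mul_of_nonneg_left (by linarith [(abs_le.1 (hD x hx)).1]) hθ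
    · simpa using (Real.exp_pos _).le
  have h3 : Real.exp (2 * θ * D) = Real.exp (θ * D) * Real.exp (θ * D) := by
    rw [← Real.exp_add]; congr 1; ring
  rw [e, h3]
  calc _ ≤ Real.exp (θ * D) * ‖X‖ * Real.exp (θ * D) :=
        (norm_mul_le _ _).trans (mul_le_mul ((norm_mul_le _ _).trans
          (mul_le_mul_of_nonneg_right h1 (norm_nonneg _))) h2 (norm_nonneg _) (by positivity))
    _ = _ := by ring

/-- the closing perturbation -/
noncomputable def Uc (w : ι → ℂ) (Q : Finset ι) (v : ι → ℝ) : Matrix ι ι ℂ :=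
  Matrix.diagonal (wCl w Q v - w)

/-- the `T`-matrix of one cluster -/
noncomputable def Tc (A : Matrix ι ι ℂ) (w : ι → ℂ) (Q : Finset ι) (v : ι → ℝ) : Matrix ι ι ℂ :=
  Uc w Q v - Uc w Q v * Gm A (wCl w Q v) * Uc w Q v

variable {A : Matrix ι ι ℂ} {w : ι → ℂ} {Q Q' : Finset ι} {v : ι → ℝ}

lemma Uc_pr (h : Q ⊆ Q') : Uc w Q' v * pr Q = Uc w Q v := by
  simp only [Uc, pr, Matrix.diagonal_mul_diagonal]
  congr 1
  funext x
  by_cases hx : x ∈ Q
  · simp [wCl, hx, h hx]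
  · simp [wCl, hx]

lemma pr_Uc : pr Q * Uc w Q v = Uc w Q v := by
  simp only [Uc, pr, Matrix.diagonal_mul_diagonal]
  congr 1
  funext x
  by_cases hx : x ∈ Q <;> simp [wCl, hx]

lemma cmp_Tc : cmp (Tc A w Q v) Q = Tc A w Q v := by
  rw [cmp_eq, Tc, mul_sub, sub_mul, pr_Uc, Uc_pr subset_rfl, ← mul_assoc, ← mul_assoc, pr_Uc,
    mul_assoc _ (Uc w Q v), Uc_pr subset_rfl]

lemma U_G_T (h : Adm A w) (h' : Adm A (wCl w Q v)) :
    Uc w Q v * Gm A w * Tc A w Q v = Uc w Q v - Tc A w Q v := by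
  have := h.resolvent h'
  rw [Tc, sub_sub_cancel]
  calc _ = Uc w Q v * (Gm A w - Gm A w * Uc w Q v * Gm A (wCl w Q v)) * Uc w Q v := by noncomm_ring
    _ = _ := by rw [Uc, ← this]

lemma norm_Tc {η : ℝ} (h0 : 0 < η) (h1 : η ≤ 1) (hu : ∀ x ∈ Q, ‖(v x : ℂ) - w x‖ ≤ 1)
    (hG : ‖cmp (Gm A (wCl w Q v)) Q‖ ≤ 2 / η) : ‖Tc A w Q v‖ ≤ 3 / η := by
  have hU : ‖Uc w Q v‖ ≤ 1 := by
    refine norm_diagonal_le zero_le_one fun x => ?_
    by_cases hx : x ∈ Q
    · simpa [wCl, hx] using hu x hx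
    · simp [wCl, hx]
  have e : Uc w Q v * Gm A (wCl w Q v) * Uc w Q v =
      Uc w Q v * cmp (Gm A (wCl w Q v)) Q * Uc w Q v := by
    rw [cmp_eq, ← mul_assoc, ← mul_assoc, Uc_pr subset_rfl, mul_assoc _ (pr Q), pr_Uc]
  have h2 : ‖Uc w Q v * cmp (Gm A (wCl w Q v)) Q * Uc w Q v‖ ≤ 1 * (2 / η) * 1 :=
    (norm_mul_le _ _).trans (mul_le_mul ((norm_mul_le _ _).trans
      (mul_le_mul hU hG (norm_nonneg _) zero_le_one)) hU (norm_nonneg _) (by positivity))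
  have h3 : 1 ≤ 1 / η := by rw [le_div_iff₀ h0]; linarith
  have h4 : 3 / η = 1 / η + 2 / η := by ring
  rw [Tc, e]
  refine (norm_sub_le _ _).trans ?_
  linarith

lemma half_bound {T Td E : Matrix ι ι ℂ} {a b e : ℝ} (h : T = Td - T * E * Td) (h1 : ‖Td‖ ≤ a)
    (h2 : ‖Td‖ ≤ b) (h3 : ‖E‖ ≤ e) (h4 : e * b ≤ 1 / 2) : ‖T‖ ≤ 2 * a := by
  have he : 0 ≤ e := (norm_nonneg _).trans h3
  have h5 : ‖T * E * Td‖ ≤ ‖T‖ * e * b :=
    (norm_mul_le _ _).trans (mul_le_mul ((norm_mul_le _ _).trans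
      (mul_le_mul_of_nonneg_left h3 (norm_nonneg _))) h2 (norm_nonneg _) (by positivity))
  have h6 : ‖T‖ ≤ ‖Td‖ + ‖T * E * Td‖ := by
    conv_lhs => rw [h]
    exact norm_sub_le _ _
  have h7 := mul_le_mul_of_nonneg_left h4 (norm_nonneg T)
  nlinarith

end Gen

lemma TW_neg {θ a : ℝ} {X : Matrix (Tor d M) (Tor d M) ℂ} (h : TW θ a X) : TW θ a (-X) :=
  fun φ hφ => by rw [wt_neg, norm_neg]; exact h φ hφ

lemma TW_sub {θ a b : ℝ} {X Y : Matrix (Tor d M) (Tor d M) ℂ} (h : TW θ a X) (h' : TW θ b Y) :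
    TW θ (a + b) (X - Y) := by
  rw [sub_eq_add_neg]; exact h.add (TW_neg h')

lemma disj (h : Rel A w O Cs B v θ θ' Ag η g K1 tn Dm R) {c c' x : Tor d M} (hc : c ∈ Cs)
    (hc' : c' ∈ Cs) (hx : x ∈ B c) (hx' : x ∈ B c') : c = c' := by
  by_contra hne
  have := h.iso c hc c' hc' hne x hx x hx'
  rw [tdist_self] at this
  omega

lemma mem_O (h : Rel A w O Cs B v θ θ' Ag η g K1 tn Dm R) {c x : Tor d M} (hc : c ∈ Cs)
    (hx : x ∈ B c) : x ∈ O :=
  h.ports x (lt_of_lt_of_le h.g0 (h.gam_ge c hc x hx)).ne'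

lemma card_le (h : Rel A w O Cs B v θ θ' Ag η g K1 tn Dm R) {S : Finset (Tor d M)} (hS : S ⊆ Cs)
    (x : Tor d M) : ((S.filter fun c => x ∈ B c).card : ℝ) ≤ 1 := by
  have : (S.filter fun c => x ∈ B c).card ≤ 1 := card_le_one.2 fun c hc c' hc' =>
    disj h (hS (mem_filter.1 hc).1) (hS (mem_filter.1 hc').1) (mem_filter.1 hc).2 (mem_filter.1 hc').2
  exact_mod_cast this

lemma norm_Tc' (h : Rel A w O Cs B v θ θ' Ag η g K1 tn Dm R) {c : Tor d M} (hc : c ∈ Cs) :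
    ‖Tc A w (B c) v‖ ≤ 3 / η := norm_Tc h.η0 h.η1 (h.u_le c hc) (h.good c hc).2

lemma norm_Td (h : Rel A w O Cs B v θ θ' Ag η g K1 tn Dm R) :
    ‖∑ c ∈ Cs, Tc A w (B c) v‖ ≤ 3 / η := by
  have := norm_sum_local_le Cs (fun c => Tc A w (B c) v) B (a := 3 / η) (n := 1)
    (by have := h.η0; positivity) (fun c hc => ⟨cmp_Tc, norm_Tc' h hc⟩) (card_le h subset_rfl)
  simpa using this

lemma one_le_K1 (h : Rel A w O Cs B v θ θ' Ag η g K1 tn Dm R) : 1 ≤ K1 := by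
  have h1 : 1 ≤ Real.exp (2 * θ' * Dm) := Real.one_le_exp (by have := h.θ0; positivity)
  have h2 : 1 ≤ 3 / η := by rw [le_div_iff₀ h.η0]; linarith [h.η1]
  nlinarith [h.hK1]

lemma TW_Td (h : Rel A w O Cs B v θ θ' Ag η g K1 tn Dm R) {S : Finset (Tor d M)} (hS : S ⊆ Cs) :
    TW θ' K1 (∑ c ∈ S, Tc A w (B c) v) := by
  intro φ hφ
  rw [wt_sum]
  have := norm_sum_local_le S (fun c => wt θ' φ (Tc A w (B c) v)) B (a := K1) (n := 1)
    (by linarith [one_le_K1 h]) (fun c hc => ⟨cmp_wt _ _ cmp_Tc, ?_⟩) (card_le h hS)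
  · simpa using this
  · refine (norm_wt_le h.θ0.le cmp_Tc (c := φ c) (D := Dm) fun x hx => ?_).trans ?_
    · refine (hφ x c).trans ?_
      exact_mod_cast mem_tball.1 (h.diam c (hS hc) hx)
    · exact (mul_le_mul_of_nonneg_left (norm_Tc' h (hS hc)) (Real.exp_pos _).le).trans h.hK1

lemma Td_supp {S : Finset (Tor d M)} {x y : Tor d M} (h0 : (∑ c ∈ S, Tc A w (B c) v) x y ≠ 0) :
    ∃ c ∈ S, x ∈ B c ∧ y ∈ B c := by
  rw [Matrix.sum_apply] at h0
  obtain ⟨c, hc, h1⟩ := exists_ne_zero_of_sum_ne_zero h0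
  exact ⟨c, hc, mem_of_ne cmp_Tc h1⟩

lemma θ_pos (h : Rel A w O Cs B v θ θ' Ag η g K1 tn Dm R) : 0 < θ := by linarith [h.θ0, h.θ1]

lemma two_le_S (h : Rel A w O Cs B v θ θ' Ag η g K1 tn Dm R) : (2 : ℝ) ≤ 12 * d / θ := by
  have : (1 : ℝ) ≤ d := by exact_mod_cast h.hd
  rw [le_div_iff₀ (θ_pos h)]
  linarith [h.θ2]

/-- the smallness budget -/
lemma budget (h : Rel A w O Cs B v θ θ' Ag η g K1 tn Dm R) :
    40 * (Ag ^ 3 * K1 ^ 2 * ((12 * d / θ) ^ d) ^ 2 * Real.exp (-θ * R / 2)) ≤ tn := by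
  refine le_trans ?_ h.htn
  have hv := one_le_vol (d := d) (M := M) (Dm + R)
  have hg : 1 ≤ 1 / g ^ 2 := by
    rw [le_div_iff₀ (by have := h.g0; positivity), one_mul]
    exact pow_le_one₀ h.g0.le h.g1
  have hA := h.Ag1
  have hK := one_le_K1 h
  have hS := two_le_S h
  have e : 40 * vol d M (Dm + R) * Ag ^ 3 * K1 ^ 2 * (12 * d / θ) ^ (2 * d) / g ^ 2 *
      Real.exp (-θ * R / 2) =
      40 * (Ag ^ 3 * K1 ^ 2 * ((12 * d / θ) ^ d) ^ 2 * Real.exp (-θ * R / 2)) *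
        (vol d M (Dm + R) * (1 / g ^ 2)) := by
    rw [mul_comm 2 d, pow_mul]; ring
  rw [e]
  exact le_mul_of_one_le_right (by positivity) (one_le_mul_of_one_le_of_one_le hv hg)

/-- the off-block part of `G` -/
noncomputable def Eo (G : Matrix (Tor d M) (Tor d M) ℂ) (Cs : Finset (Tor d M))
    (B : Tor d M → Finset (Tor d M)) : Matrix (Tor d M) (Tor d M) ℂ :=
  cmp G (Cs.biUnion B) - ∑ c ∈ Cs, cmp G (B c)

lemma TW_E (h : Rel A w O Cs B v θ θ' Ag η g K1 tn Dm R) :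
    TW θ' (Ag * (12 * d / θ) ^ d * Real.exp (-θ * R)) (Eo (Gm A w) Cs B) := by
  have hA : 0 ≤ Ag := by linarith [h.Ag1]
  have h1 := TW.of_entry (D := 4 * R) (X := Eo (Gm A w) Cs B) (θ_pos h) h.θ2 hA (fun a b => ?_)
  · refine h1.mono h.θ0.le (by linarith [h.θ1, h.θ0]) (le_of_eq ?_)
    have : -θ * ((4 * R : ℕ) : ℝ) / 4 = -θ * R := by push_cast; ring
    rw [this]; ring
  have hnn : (0 : ℝ) ≤ if 4 * R < tdist a b then Ag * Real.exp (-θ * tdist a b) else 0 := by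
    split_ifs <;> positivity
  simp only [Eo, Matrix.sub_apply, Matrix.sum_apply, cmp]
  by_cases hab : a ∈ Cs.biUnion B ∧ b ∈ Cs.biUnion B
  · rw [if_pos hab]
    obtain ⟨c, hc, ha⟩ := mem_biUnion.1 hab.1
    obtain ⟨c', hc', hb⟩ := mem_biUnion.1 hab.2
    by_cases hcc : c = c'
    · subst hcc
      rw [sum_eq_single c (fun e he hne => if_neg fun h2 => hne (disj h he hc h2.1 ha))
        (fun h2 => absurd hc h2), if_pos ⟨ha, hb⟩, sub_self, norm_zero]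
      exact hnn
    · rw [sum_eq_zero fun e he => if_neg fun h2 =>
        hcc ((disj h hc he ha h2.1).trans (disj h he hc' h2.2 hb)), sub_zero,
        if_pos (h.iso c hc c' hc' hcc a ha b hb)]
      have := h.tw.entry a b
      simp only [cmp, if_pos (And.intro (mem_O h hc ha) (mem_O h hc' hb))] at this
      exact this
  · rw [if_neg hab, sum_eq_zero fun e he => if_neg fun h2 =>
      hab ⟨mem_biUnion.2 ⟨e, he, h2.1⟩, mem_biUnion.2 ⟨e, he, h2.2⟩⟩, sub_zero, norm_zero]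
    exact hnn

lemma small (h : Rel A w O Cs B v θ θ' Ag η g K1 tn Dm R) :
    Ag * (12 * d / θ) ^ d * Real.exp (-θ * R) * K1 ≤ 1 / 2 := by
  have hb := budget h
  have hA := h.Ag1
  have hK := one_le_K1 h
  have hS : (1 : ℝ) ≤ (12 * d / θ) ^ d := one_le_pow₀ (by linarith [two_le_S h])
  have he : Real.exp (-θ * R) ≤ Real.exp (-θ * R / 2) := by
    rw [Real.exp_le_exp]
    have : 0 ≤ θ * R := by have := θ_pos h; positivity
    linarith
  have h1 : Ag ≤ Ag ^ 3 := le_self_pow₀ hA (by norm_num)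
  have h2 : K1 ≤ K1 ^ 2 := le_self_pow₀ hK (by norm_num)
  have h3 : ((12 * d / θ) ^ d : ℝ) ≤ ((12 * d / θ) ^ d) ^ 2 := le_self_pow₀ hS (by norm_num)
  have h4 : Ag * K1 * (12 * d / θ) ^ d * Real.exp (-θ * R) ≤
      Ag ^ 3 * K1 ^ 2 * ((12 * d / θ) ^ d) ^ 2 * Real.exp (-θ * R / 2) := by gcongr
  have := h.tn1
  nlinarith

lemma pr_Td (h : Rel A w O Cs B v θ θ' Ag η g K1 tn Dm R) {c : Tor d M} (hc : c ∈ Cs) :
    pr (B c) * ∑ e ∈ Cs, Tc A w (B e) v = Tc A w (B c) v := by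
  ext a b
  rw [pr_mul_apply, Matrix.sum_apply]
  split_ifs with ha
  · refine sum_eq_single c (fun e he hne => ?_) (fun h2 => absurd hc h2)
    by_contra h0
    exact hne (disj h he hc (mem_of_ne cmp_Tc h0).1 ha)
  · by_contra h0
    exact ha (mem_of_ne cmp_Tc (Ne.symm h0)).1

lemma pr_Td' : pr (Cs.biUnion B) * ∑ e ∈ Cs, Tc A w (B e) v = ∑ e ∈ Cs, Tc A w (B e) v := by
  ext a b
  rw [pr_mul_apply]
  split_ifs with ha
  · rfl
  · by_contra h0
    obtain ⟨c, hc, h1, -⟩ := Td_supp (Ne.symm h0)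
    exact ha (mem_biUnion.2 ⟨c, hc, h1⟩)

lemma sum_Uc (h : Rel A w O Cs B v θ θ' Ag η g K1 tn Dm R) :
    ∑ c ∈ Cs, Uc w (B c) v = Uc w (Cs.biUnion B) v := by
  ext a b
  rw [Matrix.sum_apply]
  by_cases hab : a = b
  · subst hab
    simp only [Uc, Matrix.diagonal_apply_eq, Pi.sub_apply, wCl]
    split_ifs with ha
    · obtain ⟨c, hc, h1⟩ := mem_biUnion.1 ha
      rw [sum_eq_single c (fun e he hne => ?_) (fun h2 => absurd hc h2), if_pos h1]
      rw [if_neg fun h2 => hne (disj h he hc h2 h1), sub_self]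
    · rw [sub_self]
      refine sum_eq_zero fun e he => ?_
      rw [if_neg fun h2 => ha (mem_biUnion.2 ⟨e, he, h2⟩), sub_self]
  · simp only [Uc, Matrix.diagonal_apply_ne _ hab, sum_const_zero]

lemma key (h : Rel A w O Cs B v θ θ' Ag η g K1 tn Dm R) :
    (1 + Uc w (Cs.biUnion B) v * Gm A w) * ∑ c ∈ Cs, Tc A w (B c) v =
      Uc w (Cs.biUnion B) v * (1 + Eo (Gm A w) Cs B * ∑ c ∈ Cs, Tc A w (B c) v) := by
  set Td := ∑ c ∈ Cs, Tc A w (B c) v with hTd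
  set U := Uc w (Cs.biUnion B) v with hU
  have h1 : U * cmp (Gm A w) (Cs.biUnion B) * Td = U * Gm A w * Td := by
    rw [cmp_eq, ← mul_assoc, ← mul_assoc, hU, Uc_pr subset_rfl, mul_assoc _ (pr _), hTd, pr_Td']
  have h2 : U * (∑ c ∈ Cs, cmp (Gm A w) (B c)) * Td = U - Td := by
    have h3 : U - Td = ∑ c ∈ Cs, (Uc w (B c) v - Tc A w (B c) v) := by
      rw [sum_sub_distrib, sum_Uc h]
    rw [h3, mul_sum Cs (fun c => cmp (Gm A w) (B c)), sum_mul]
    refine sum_congr rfl fun c hc => ?_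
    rw [cmp_eq, ← mul_assoc, ← mul_assoc, hU, Uc_pr (subset_biUnion_of_mem B hc),
      mul_assoc _ (pr _), hTd, pr_Td h hc, U_G_T h.adm (h.good c hc).1]
  calc (1 + U * Gm A w) * Td = U + (U * Gm A w * Td - (U - Td)) := by noncomm_ring
    _ = _ := by rw [← h1, ← h2, Eo]; noncomm_ring

theorem main (h : Rel A w O Cs B v θ θ' Ag η g K1 tn Dm R) :
    Adm A (wCl w (Cs.biUnion B) v) ∧ ∃ T : Matrix (Tor d M) (Tor d M) ℂ,
      Gm A (wCl w (Cs.biUnion B) v) = Gm A w - Gm A w * T * Gm A w ∧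
      cmp T (Cs.biUnion B) = T ∧ ‖T‖ ≤ 6 / η ∧ TW θ' (2 * K1) T ∧
      TW θ' (2 * K1 ^ 2 * Ag * (12 * d / θ) ^ d * Real.exp (-θ * R))
        (T - ∑ c ∈ Cs, Tc A w (B c) v) := by
  have hk := key h
  have hsupp : ∀ x y, (∑ c ∈ Cs, Tc A w (B c) v) x y ≠ 0 →
      x ∈ Cs.biUnion B ∧ y ∈ Cs.biUnion B := fun x y h0 => by
    obtain ⟨c, hc, h1, h2⟩ := Td_supp h0
    exact ⟨mem_biUnion.2 ⟨c, hc, h1⟩, mem_biUnion.2 ⟨c, hc, h2⟩⟩
  have hd1 := TW_Td h subset_rfl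
  have hd2 := norm_Td h
  have hE := TW_E h
  have hs := small h
  set Td := ∑ c ∈ Cs, Tc A w (B c) v with hTd
  set U := Uc w (Cs.biUnion B) v with hU
  set E := Eo (Gm A w) Cs B
  have hn : ‖-(E * Td)‖ < 1 := by
    rw [norm_neg]
    exact lt_of_le_of_lt ((hE.mul hd1).norm.trans hs) (by norm_num)
  have hu : IsUnit (1 + E * Td) := by
    have := isUnit_one_sub_of_norm_lt_one hn
    rwa [sub_neg_eq_add] at this
  have hdet := (Matrix.isUnit_iff_isUnit_det _).1 hu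
  set T := Td * (1 + E * Td)⁻¹ with hT
  have hT1 : T = Td - T * E * Td := by
    have : T * (1 + E * Td) = Td := by rw [hT, mul_assoc, Matrix.nonsing_inv_mul _ hdet, mul_one]
    rw [mul_add, mul_one, ← mul_assoc] at this
    exact eq_sub_of_add_eq this
  have hT2 : (1 + U * Gm A w) * T = U := by
    rw [hT, ← mul_assoc, hk, mul_assoc, Matrix.mul_nonsing_inv _ hdet, mul_one]
  have hH : Hm A (wCl w (Cs.biUnion B) v) = Hm A w + U := by
    rw [hU, Uc, Hm, Hm, add_assoc, Matrix.diagonal_add]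
    congr 2
    funext x
    simp
  have hG : Hm A w * Gm A w = 1 := Matrix.mul_nonsing_inv _ h.adm.inv
  have hinv : Hm A (wCl w (Cs.biUnion B) v) * (Gm A w - Gm A w * T * Gm A w) = 1 := by
    calc _ = Hm A w * Gm A w + U * Gm A w - (Hm A w * Gm A w + U * Gm A w) * T * Gm A w := by
          rw [hH]; noncomm_ring
      _ = 1 := by rw [hG, hT2, add_sub_cancel_right]
  have hTW : TW θ' (2 * K1) T := fun φ hφ =>
    half_bound (Td := wt θ' φ Td) (E := wt θ' φ E)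
      (by rw [← wt_mul, ← wt_mul, ← wt_sub, ← hT1]) (hd1 φ hφ) (hd1 φ hφ) (hE φ hφ) hs
  refine ⟨⟨h.adm.symm, h.adm.herm, fun x => ?_, Matrix.isUnit_det_of_right_inverse hinv⟩, T,
    Matrix.inv_eq_right_inv hinv, ?_, ?_, hTW, ?_⟩
  · have := h.adm.diss x
    simp only [gam, wCl] at this ⊢
    split_ifs
    · simp
    · exact this
  · refine cmp_of_mem fun a b h0 => ⟨?_, ?_⟩
    · rw [hT, Matrix.mul_apply] at h0
      obtain ⟨x, -, h1⟩ := exists_ne_zero_of_sum_ne_zero h0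
      exact (hsupp a x (left_ne_zero_of_mul h1)).1
    · have e : T = (1 - T * E) * Td := by rw [sub_mul, one_mul]; exact hT1
      rw [e, Matrix.mul_apply] at h0
      obtain ⟨x, -, h1⟩ := exists_ne_zero_of_sum_ne_zero h0
      exact (hsupp x b (right_ne_zero_of_mul h1)).2
  · have := half_bound hT1 hd2 hd1.norm hE.norm hs
    calc ‖T‖ ≤ 2 * (3 / η) := this
      _ = 6 / η := by ring
  · have e : T - Td = -(T * E * Td) := by
      conv_lhs => rw [hT1]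
      abel
    rw [e]
    refine (TW_neg ((hTW.mul hE).mul hd1)).mono h.θ0.le le_rfl (le_of_eq ?_)
    ring

lemma TW_G (h : Rel A w O Cs B v θ θ' Ag η g K1 tn Dm R) : TW θ' Ag (cmp (Gm A w) O) :=
  h.tw.mono h.θ0.le (by linarith [h.θ1, h.θ0]) le_rfl

lemma GTG (h : Rel A w O Cs B v θ θ' Ag η g K1 tn Dm R) {T : Matrix (Tor d M) (Tor d M) ℂ}
    (hT : cmp T (Cs.biUnion B) = T) {a b : Tor d M} (ha : a ∈ O) (hb : b ∈ O) :
    (Gm A w * T * Gm A w) a b = (cmp (Gm A w) O * T * cmp (Gm A w) O) a b := by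
  refine triple_congr fun x y h0 => ?_
  obtain ⟨hx, hy⟩ := mem_of_ne hT h0
  obtain ⟨c, hc, hx⟩ := mem_biUnion.1 hx
  obtain ⟨c', hc', hy⟩ := mem_biUnion.1 hy
  simp only [cmp, if_pos (And.intro ha (mem_O h hc hx)), if_pos (And.intro (mem_O h hc' hy) hb),
    and_self]

/-- the far part of a matrix -/
def farP (X : Matrix (Tor d M) (Tor d M) ℂ) (R : ℕ) : Matrix (Tor d M) (Tor d M) ℂ := fun a b =>
  if R < tdist a b then X a b else 0

lemma TW_far (h : Rel A w O Cs B v θ θ' Ag η g K1 tn Dm R) :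
    TW θ' (Ag * Real.exp (-θ * R / 2) * ((12 * d / θ) ^ d) ^ 2) (farP (cmp (Gm A w) O) R) := by
  have hA : 0 ≤ Ag := by linarith [h.Ag1]
  have hθ := θ_pos h
  have h1 := TW.of_entry (θ := θ / 2) (A := Ag * Real.exp (-θ * R / 2)) (D := R)
    (X := farP (cmp (Gm A w) O) R) (by positivity) (by linarith [h.θ2]) (by positivity)
    (fun a b => ?_)
  · refine h1.mono h.θ0.le (by linarith [h.θ1]) ?_
    have hS := two_le_S h
    have e1 : Real.exp (-(θ / 2) * R / 4) ≤ 1 := by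
      rw [Real.exp_le_one_iff]
      have : 0 ≤ θ * R := by positivity
      linarith
    have e2 : (12 * d / (θ / 2) : ℝ) ^ d ≤ ((12 * d / θ) ^ d) ^ 2 := by
      have : (12 * d / (θ / 2) : ℝ) = 2 * (12 * d / θ) := by field_simp
      rw [this, sq, ← mul_pow]
      gcongr
    calc _ ≤ Ag * Real.exp (-θ * R / 2) * 1 * ((12 * d / θ) ^ d) ^ 2 := by gcongr
      _ = _ := by ring
  simp only [farP]
  split_ifs with hab
  · refine (h.tw.entry a b).trans ?_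
    rw [mul_assoc, ← Real.exp_add]
    refine mul_le_mul_of_nonneg_left (Real.exp_le_exp.2 ?_) hA
    have : (R : ℝ) ≤ tdist a b := by exact_mod_cast hab.le
    nlinarith
  · simp

end Rel1

open Rel1

theorem Rel.exists_T (h : Rel A w O Cs B v θ θ' Ag η g K1 tn Dm R) :
    Adm A (wCl w (Cs.biUnion B) v) ∧ ∃ T Td : Matrix (Tor d M) (Tor d M) ℂ,
      Gm A (wCl w (Cs.biUnion B) v) = Gm A w - Gm A w * T * Gm A w ∧
      cmp T (Cs.biUnion B) = T ∧ ‖T‖ ≤ 6 / η ∧ TW θ' (2 * K1) T ∧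
      (∀ x x', Td x x' ≠ 0 → ∃ c ∈ Cs, x ∈ B c ∧ x' ∈ B c) ∧ ‖Td‖ ≤ 3 / η ∧
      TW θ' (2 * K1 ^ 2 * Ag * (12 * d / θ) ^ d * Real.exp (-θ * R)) (T - Td) := by
  obtain ⟨h0, T, h1, h2, h3, h4, h5⟩ := main h
  exact ⟨h0, T, _, h1, h2, h3, h4, fun x x' hx => Td_supp hx, norm_Td h, h5⟩

theorem Rel.ref (h : Rel A w O Cs B v θ θ' Ag η g K1 tn Dm R) {a b : Tor d M} (ha : a ∈ O)
    (hb : b ∈ O) : ‖Gm A (wCl w (Cs.biUnion B) v) a b‖ ≤
      (Ag + 2 * Ag ^ 2 * K1) * Real.exp (-θ' * tdist a b) := by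
  obtain ⟨-, T, h1, h2, -, h4, -⟩ := main h
  have hG := TW_G h
  have h5 := (TW_sub hG ((hG.mul h4).mul hG)).entry a b
  have e : Gm A (wCl w (Cs.biUnion B) v) a b =
      (cmp (Gm A w) O - cmp (Gm A w) O * T * cmp (Gm A w) O) a b := by
    rw [h1, Matrix.sub_apply, Matrix.sub_apply, GTG h h2 ha hb]
    simp only [cmp, if_pos (And.intro ha hb)]
  rw [e]
  refine h5.trans (le_of_eq ?_)
  ring

theorem Rel.far (h : Rel A w O Cs B v θ θ' Ag η g K1 tn Dm R) {a b : Tor d M} (ha : a ∈ O)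
    (hb : b ∈ O) (hab : ¬ ∃ c ∈ Cs, a ∈ nbhd (B c) R ∧ b ∈ nbhd (B c) R) :
    ‖Gm A (wCl w (Cs.biUnion B) v) a b - Gm A w a b‖ ≤ tn * Real.exp (-θ' * tdist a b) := by
  obtain ⟨-, T, h1, h2, -, -, h5⟩ := main h
  have hG := TW_G h
  have hF := TW_far h
  set G := cmp (Gm A w) O with hGd
  set T1 := ∑ c ∈ Cs.filter (fun c => a ∉ nbhd (B c) R), Tc A w (B c) v with hT1
  set T2 := ∑ c ∈ Cs.filter (fun c => ¬ a ∉ nbhd (B c) R), Tc A w (B c) v with hT2
  have hsum : ∑ c ∈ Cs, Tc A w (B c) v = T1 + T2 := (sum_filter_add_sum_filter_not _ _ _).symm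
  have t1 : TW θ' K1 T1 := TW_Td h (filter_subset _ _)
  have t2 : TW θ' K1 T2 := TW_Td h (filter_subset _ _)
  rw [hsum] at h5
  have e1 : (G * T1 * G) a b = (farP G R * T1 * G) a b := by
    refine triple_congr fun x y h0 => ⟨?_, rfl⟩
    obtain ⟨c, hc, hx, -⟩ := Td_supp h0
    have : R < tdist a x := by
      by_contra h3
      exact (mem_filter.1 hc).2 (mem_filter.2 ⟨mem_univ _, x, hx, not_lt.1 h3⟩)
    simp only [farP, if_pos this]
  have e2 : (G * T2 * G) a b = (G * T2 * farP G R) a b := by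
    refine triple_congr fun x y h0 => ⟨rfl, ?_⟩
    obtain ⟨c, hc, -, hy⟩ := Td_supp h0
    have : R < tdist y b := by
      by_contra h3
      refine hab ⟨c, (mem_filter.1 hc).1, not_not.1 (mem_filter.1 hc).2,
        mem_filter.2 ⟨mem_univ _, y, hy, ?_⟩⟩
      rw [tdist_comm]; exact not_lt.1 h3
    simp only [farP, if_pos this]
  have e : Gm A (wCl w (Cs.biUnion B) v) a b - Gm A w a b =
      (-(farP G R * T1 * G + G * T2 * farP G R + G * (T - (T1 + T2)) * G)) a b := by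
    have e3 : G * T * G = G * T1 * G + G * T2 * G + G * (T - (T1 + T2)) * G := by noncomm_ring
    rw [h1, Matrix.sub_apply, GTG h h2 ha hb, ← hGd, e3]
    simp only [Matrix.add_apply, Matrix.neg_apply, e1, e2]
    ring
  have h6 := (TW_neg ((((hF.mul t1).mul hG).add ((hG.mul t2).mul hF)).add
    ((hG.mul h5).mul hG))).entry a b
  rw [e]
  refine h6.trans (mul_le_mul_of_nonneg_right ?_ (Real.exp_pos _).le)
  have hb := budget h
  have hA := h.Ag1
  have hK := one_le_K1 h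
  have hS : (1 : ℝ) ≤ (12 * d / θ) ^ d := one_le_pow₀ (by linarith [two_le_S h])
  have he : Real.exp (-θ * R) ≤ Real.exp (-θ * R / 2) := by
    rw [Real.exp_le_exp]
    have : 0 ≤ θ * R := by have := θ_pos h; positivity
    linarith
  generalize ((12 * d / θ) ^ d : ℝ) = S at *
  have p1 : Ag ^ 2 ≤ Ag ^ 3 := pow_le_pow_right₀ hA (by norm_num)
  have p2 : K1 ≤ K1 ^ 2 := le_self_pow₀ hK (by norm_num)
  have p3 : S ≤ S ^ 2 := le_self_pow₀ hS (by norm_num)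
  have q1 : Ag ^ 2 * K1 * S ^ 2 * Real.exp (-θ * R / 2) ≤
      Ag ^ 3 * K1 ^ 2 * S ^ 2 * Real.exp (-θ * R / 2) := by gcongr
  have q2 : Ag ^ 3 * K1 ^ 2 * S * Real.exp (-θ * R) ≤
      Ag ^ 3 * K1 ^ 2 * S ^ 2 * Real.exp (-θ * R / 2) := by gcongr
  have q3 : 0 ≤ Ag ^ 3 * K1 ^ 2 * S ^ 2 * Real.exp (-θ * R / 2) := by positivity
  calc _ = 2 * (Ag ^ 2 * K1 * S ^ 2 * Real.exp (-θ * R / 2)) +
        2 * (Ag ^ 3 * K1 ^ 2 * S * Real.exp (-θ * R)) := by ring
    _ ≤ tn := by linarith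

end Crest.Agent.N334.AC
end

-- ▼ part N334/AC/L/Rel2
section

/-! # S0520 part L: abstract row and mass bounds for a release (tools for `Rel.row`, `Rel.mass`) -/

set_option autoImplicit false

open Finset Complex
open scoped Matrix.Norms.L2Operator Matrix

namespace Crest.Agent.N334.AC.R2

variable {ι : Type} [Fintype ι] [DecidableEq ι]

/-- restriction of a vector -/
def rs (B : Finset ι) (x : ι → ℂ) : ι → ℂ := fun a => if a ∈ B then x a else 0
/-- the rows in `B` -/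
def rows (B : Finset ι) (X : Matrix ι ι ℂ) : Matrix ι ι ℂ := fun a b => if a ∈ B then X a b else 0

lemma rows_mulVec (B : Finset ι) (X : Matrix ι ι ℂ) (y : ι → ℂ) :
    rows B X *ᵥ y = rs B (X *ᵥ y) := by
  funext a
  by_cases h : a ∈ B <;> simp [rows, rs, Matrix.mulVec, dotProduct, h]
lemma nsq_rs (B : Finset ι) (x : ι → ℂ) : nsq (rs B x) = ∑ a ∈ B, ‖x a‖ ^ 2 := by
  rw [nsq, ← Finset.sum_subset (subset_univ B) fun a _ h => by simp [rs, h]]
  exact Finset.sum_congr rfl fun a h => by simp [rs, h]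
omit [DecidableEq ι] in
lemma sum_le_nsq (B : Finset ι) (x : ι → ℂ) : ∑ a ∈ B, ‖x a‖ ^ 2 ≤ nsq x :=
  Finset.sum_le_sum_of_subset_of_nonneg (subset_univ B) fun _ _ _ => by positivity
lemma nsq_rs_le (B : Finset ι) (x : ι → ℂ) : nsq (rs B x) ≤ nsq x :=
  (nsq_rs B x).trans_le (sum_le_nsq B x)
lemma rs_add (B : Finset ι) (x : ι → ℂ) : rs B x + rs Bᶜ x = x := by
  funext a
  by_cases h : a ∈ B <;> simp [rs, h]
lemma sq_sub_le (x y : ℂ) : ‖-x - y‖ ^ 2 ≤ 2 * ‖x‖ ^ 2 + 2 * ‖y‖ ^ 2 := by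
  have := norm_sub_le (-x) y
  rw [norm_neg] at this
  nlinarith [norm_nonneg (-x - y), norm_nonneg x, norm_nonneg y, sq_nonneg (‖x‖ - ‖y‖)]

/-- `D = -K Y` off `U`; near `B` only the rows `B` of `Y` matter up to `Kf` -/
structure Dat (K Kf Y D : Matrix ι ι ℂ) (B U N : Finset ι) (Λ δ : ℝ) : Prop where
  supp : ∀ x b, x ∉ U → Y x b = 0
  hY : ‖Y‖ ≤ Λ
  hD : ‖D‖ ≤ 2
  hf : ‖Kf‖ * Λ ≤ δ
  eq : ∀ a, a ∉ U → ∀ b, D a b = -(K * Y) a b
  near : ∀ a ∈ N, ∀ x ∈ U, x ∉ B → K a x = Kf a x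
  far : ∀ a, a ∉ N → ∀ x ∈ B, K a x = Kf a x
  dis : ∀ a ∈ N, a ∉ B → a ∉ U
  small : 3 * δ ^ 2 ≤ 1

variable {K Kf Y D : Matrix ι ι ℂ} {B U N : Finset ι} {Λ δ : ℝ} (h : Dat K Kf Y D B U N Λ δ)
include h

lemma Dat.nsq_Y (C : Finset ι) (y : ι → ℂ) : nsq (rs C (Y *ᵥ y)) ≤ Λ ^ 2 * nsq y := by
  have := nsq_nonneg y
  refine (nsq_rs_le _ _).trans ((nsq_mulVec_le Y y).trans ?_)
  gcongr
  exact h.hY
lemma Dat.nsq_f (C : Finset ι) (y : ι → ℂ) : nsq (Kf *ᵥ rs C (Y *ᵥ y)) ≤ δ ^ 2 * nsq y := by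
  have := nsq_nonneg y
  have h0 : 0 ≤ Λ := (norm_nonneg _).trans h.hY
  calc _ ≤ ‖Kf‖ ^ 2 * (Λ ^ 2 * nsq y) :=
        (nsq_mulVec_le _ _).trans (by gcongr; exact h.nsq_Y C y)
    _ = (‖Kf‖ * Λ) ^ 2 * nsq y := by ring
    _ ≤ _ := by gcongr; exact h.hf
lemma Dat.split (y : ι → ℂ) {a : ι} (ha : a ∈ N) (ha' : a ∉ B) :
    (D *ᵥ y) a = -(K *ᵥ rs B (Y *ᵥ y)) a - (Kf *ᵥ rs Bᶜ (Y *ᵥ y)) a := by
  have h1 : (D *ᵥ y) a = -(K *ᵥ (Y *ᵥ y)) a := by
    rw [Matrix.mulVec_mulVec]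
    simp [Matrix.mulVec, dotProduct, h.eq a (h.dis a ha ha')]
  have h2 : (K *ᵥ rs Bᶜ (Y *ᵥ y)) a = (Kf *ᵥ rs Bᶜ (Y *ᵥ y)) a := by
    refine Finset.sum_congr rfl fun x _ => ?_
    by_cases hx : x ∈ B
    · simp [rs, hx]
    by_cases hU : x ∈ U
    · exact congrArg (· * _) (h.near a ha x hU hx)
    · simp [rs, Matrix.mulVec, dotProduct, h.supp x _ hU]
  rw [h1, ← h2, ← neg_add', ← Pi.add_apply, ← Matrix.mulVec_add, rs_add]
lemma Dat.main (y : ι → ℂ) : ∑ a ∈ univ \ B, ‖(K *ᵥ rs B (Y *ᵥ y)) a‖ ^ 2 ≤ 9 * nsq y := by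
  have h0 := nsq_nonneg y
  have h1 : ∀ a ∈ univ \ B, ‖(K *ᵥ rs B (Y *ᵥ y)) a‖ ^ 2 ≤ 2 * ‖(D *ᵥ y) a‖ ^ 2 +
      2 * ‖(Kf *ᵥ rs Bᶜ (Y *ᵥ y)) a‖ ^ 2 + ‖(Kf *ᵥ rs B (Y *ᵥ y)) a‖ ^ 2 := fun a ha => by
    by_cases hN : a ∈ N
    · have e : (K *ᵥ rs B (Y *ᵥ y)) a = -(D *ᵥ y) a - (Kf *ᵥ rs Bᶜ (Y *ᵥ y)) a := by
        rw [h.split y hN (mem_sdiff.1 ha).2]; ring
      rw [e]
      exact (sq_sub_le _ _).trans (le_add_of_nonneg_right (by positivity))
    · have e : (K *ᵥ rs B (Y *ᵥ y)) a = (Kf *ᵥ rs B (Y *ᵥ y)) a :=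
        Finset.sum_congr rfl fun x _ => by
          by_cases hx : x ∈ B
          · exact congrArg (· * _) (h.far a hN x hx)
          · simp [rs, hx]
      rw [e]
      exact le_add_of_nonneg_left (by positivity)
  have h2 := Finset.sum_le_sum h1
  simp only [Finset.sum_add_distrib, ← Finset.mul_sum] at h2
  have h3 := (sum_le_nsq (univ \ B) _).trans (h.nsq_f B y)
  have h4 := (sum_le_nsq (univ \ B) _).trans (h.nsq_f Bᶜ y)
  have h5 : nsq (D *ᵥ y) ≤ 2 ^ 2 * nsq y := (nsq_mulVec_le D y).trans (by gcongr; exact h.hD)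
  have h6 := (sum_le_nsq (univ \ B) _).trans h5
  nlinarith [mul_le_mul_of_nonneg_right h.small h0]
lemma Dat.row {ε ζ : ℝ} (hε : 0 ≤ ε) (hζ : (ζ * Λ) ^ 2 ≤ 1) {a : ι} (ha : a ∈ N) (ha' : a ∉ B)
    (hl : LevD K B ε ζ a) : ∑ b, ‖D a b‖ ^ 2 ≤ 20 * ε + 2 * δ ^ 2 := by
  refine nsq_le_of_dual (x := D a) (by positivity) fun y => ?_
  have h0 := nsq_nonneg y
  have h1 := hl (rs B (Y *ᵥ y)) fun x hx => if_neg hx
  have h2 : ζ ^ 2 * nsq (rs B (Y *ᵥ y)) ≤ nsq y :=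
    calc _ ≤ ζ ^ 2 * (Λ ^ 2 * nsq y) := by gcongr; exact h.nsq_Y B y
      _ = (ζ * Λ) ^ 2 * nsq y := by ring
      _ ≤ _ := mul_le_of_le_one_left h0 hζ
  have h3 := (sq_le_nsq _ a).trans (h.nsq_f Bᶜ y)
  have h4 := mul_le_mul_of_nonneg_left (add_le_add (h.main y) h2) hε
  rw [dotProduct_comm, show D a ⬝ᵥ y = (D *ᵥ y) a from rfl, h.split y ha ha']
  refine (sq_sub_le _ _).trans ?_
  nlinarith
lemma Dat.mass {S : Finset ι} (hS : ∀ a ∈ S, a ∈ N ∧ a ∉ B) :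
    ∑ a ∈ S, ∑ b, ‖D a b‖ ^ 2 ≤ 18 * B.card + 2 * S.card * δ ^ 2 := by
  have hδ : 0 ≤ δ := (mul_nonneg (norm_nonneg _) ((norm_nonneg _).trans h.hY)).trans h.hf
  have h1 : ‖rows Bᶜ K * rows B Y‖ ≤ 3 := norm_le_of_nsq (by norm_num) fun y => by
    rw [← Matrix.mulVec_mulVec, rows_mulVec, rows_mulVec, nsq_rs, compl_eq_univ_sdiff]
    exact (h.main y).trans_eq (by norm_num)
  have h2 : ‖Kf * rows Bᶜ Y‖ ≤ δ := norm_le_of_nsq hδ fun y => by
    rw [← Matrix.mulVec_mulVec, rows_mulVec]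
    exact h.nsq_f _ y
  have h3 : ∀ a ∈ S, ∑ b, ‖D a b‖ ^ 2 ≤
      2 * ∑ b, ‖(rows Bᶜ K * rows B Y) a b‖ ^ 2 + 2 * δ ^ 2 := fun a ha => by
    have h4 : ∑ b, ‖(Kf * rows Bᶜ Y) a b‖ ^ 2 ≤ δ ^ 2 := (row_sq_le _ a).trans (by gcongr)
    have h5 : ∀ b, D a b = -(rows Bᶜ K * rows B Y) a b - (Kf * rows Bᶜ Y) a b := fun b => by
      have := h.split (Pi.single b 1) (hS a ha).1 (hS a ha).2
      rw [← rows_mulVec, ← rows_mulVec, Matrix.mulVec_mulVec, Matrix.mulVec_mulVec,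
        Matrix.mulVec_single_one, Matrix.mulVec_single_one, Matrix.mulVec_single_one] at this
      refine this.trans ?_
      simp [Matrix.mul_apply, rows, (hS a ha).2]
    calc _ ≤ ∑ b, (2 * ‖(rows Bᶜ K * rows B Y) a b‖ ^ 2 + 2 * ‖(Kf * rows Bᶜ Y) a b‖ ^ 2) :=
          Finset.sum_le_sum fun b _ => by rw [h5]; exact sq_sub_le _ _
      _ ≤ _ := by rw [Finset.sum_add_distrib, ← Finset.mul_sum, ← Finset.mul_sum]; linarith
  have h6 : ∑ a ∈ S, ∑ b, ‖(rows Bᶜ K * rows B Y) a b‖ ^ 2 ≤ B.card * 3 ^ 2 :=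
    calc _ ≤ ∑ a, ∑ b, ‖(rows Bᶜ K * rows B Y) a b‖ ^ 2 :=
          Finset.sum_le_sum_of_subset_of_nonneg (subset_univ S) fun _ _ _ => by positivity
      _ ≤ _ := (hs_le_card (Y := rows B Y) fun x b hx => if_neg hx).trans (by gcongr)
  have h7 := Finset.sum_le_sum h3
  rw [Finset.sum_add_distrib, ← Finset.mul_sum, Finset.sum_const, nsmul_eq_mul] at h7
  linarith

omit h
/-- the change of `K` when the ports of `U` are closed -/
lemma exists_Y {A T : Matrix ι ι ℂ} {w : ι → ℂ} {v : ι → ℝ} {g t : ℝ} (hA : Adm A w)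
    (hA' : Adm A (wCl w U v)) (hg : 0 < g) (hU : ∀ x ∈ U, g ≤ gam w x)
    (hG : Gm A (wCl w U v) = Gm A w - Gm A w * T * Gm A w) (hT : cmp T U = T) (ht : ‖T‖ ≤ t) :
    ∃ Y D : Matrix ι ι ℂ, (∀ x b, x ∉ U → Y x b = 0) ∧ ‖Y‖ ≤ t / g ∧ ‖D‖ ≤ 2 ∧
      (∀ a, a ∉ U → ∀ b, D a b = -(Km A w * Y) a b) ∧
      ∀ a b, D a b = if b ∈ U then 0 else Km A (wCl w U v) a b - Km A w a b := by
  set S : Matrix ι ι ℂ := Matrix.diagonal fun x => (√(gam w x) : ℂ) with hS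
  set Q : Matrix ι ι ℂ := Matrix.diagonal fun x => if x ∈ U then ((√(gam w x) : ℂ))⁻¹ else 0 with hQ
  set P : Matrix ι ι ℂ := Matrix.diagonal fun x => if x ∈ U then (0 : ℂ) else 1 with hP
  have hK : Km A w = S * Gm A w * S := by
    ext a b; simp [hS, Km]
  have hne : ∀ x ∈ U, (√(gam w x) : ℂ) ≠ 0 := fun x hx =>
    ofReal_ne_zero.2 (Real.sqrt_ne_zero'.2 (hg.trans_le (hU x hx)))
  have hST : S * (Q * T * Q) * S = T := by
    ext a b
    conv_rhs => rw [← hT]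
    simp only [hS, hQ, Matrix.mul_diagonal, Matrix.diagonal_mul, cmp]
    by_cases ha : a ∈ U <;> by_cases hb : b ∈ U <;> simp [ha, hb]
    field_simp [hne a ha, hne b hb]
  have nP : ‖P‖ ≤ 1 := norm_diagonal_le zero_le_one fun x => by split_ifs <;> simp
  have nQ : ‖Q‖ ≤ (√g)⁻¹ := norm_diagonal_le (by positivity) fun x => by
    split_ifs with hx
    · rw [norm_inv, norm_real, Real.norm_of_nonneg (Real.sqrt_nonneg _)]
      gcongr
      exact hU x hx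
    · rw [norm_zero]; positivity
  have hD : ∀ a b, ((Km A (wCl w U v) - Km A w) * P) a b =
      if b ∈ U then 0 else Km A (wCl w U v) a b - Km A w a b := fun a b => by
    simp [hP]
  refine ⟨Q * T * Q * Km A w * P, (Km A (wCl w U v) - Km A w) * P, fun x b hx => ?_, ?_, ?_,
    fun a ha b => ?_, hD⟩
  · simp [hQ, Matrix.mul_assoc, hx]
  · have ht0 : 0 ≤ t := (norm_nonneg _).trans ht
    calc _ ≤ ‖Q‖ * ‖T‖ * ‖Q‖ * ‖Km A w‖ * ‖P‖ := by
          refine (norm_mul_le _ _).trans ?_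
          gcongr
          refine (norm_mul_le _ _).trans ?_
          gcongr
          refine (norm_mul_le _ _).trans ?_
          gcongr
          exact norm_mul_le _ _
      _ ≤ (√g)⁻¹ * t * (√g)⁻¹ * 1 * 1 := by gcongr; exact hA.norm_K
      _ = t / (√g * √g) := by field_simp
      _ = _ := by rw [Real.mul_self_sqrt hg.le]
  · calc _ ≤ (‖Km A (wCl w U v)‖ + ‖Km A w‖) * ‖P‖ :=
          (norm_mul_le _ _).trans (by gcongr; exact norm_sub_le _ _)
      _ ≤ (1 + 1) * 1 := by gcongr; exacts [hA'.norm_K, hA.norm_K]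
      _ = _ := by norm_num
  · have e : Km A w * (Q * T * Q * Km A w * P) = S * (Gm A w * T * Gm A w) * S * P := by
      conv_rhs => rw [← hST]
      rw [hK]
      simp only [Matrix.mul_assoc]
    rw [hD, e]
    by_cases hb : b ∈ U
    · simp [hP, hb]
    · simp only [hP, hS, Matrix.mul_diagonal, Matrix.diagonal_mul, if_neg hb, Km, hG, gam, wCl,
        if_neg ha, Matrix.sub_apply]
      ring

end Crest.Agent.N334.AC.R2
end

-- ▼ part N334/AC/L/Rel
section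

/-! # S0520 part L: simultaneous closing of far clusters (leaves Rel1 = `Rel.exists_T`, `Rel.ref`, `Rel.far`;
Rel2 = `Rel.row`, `Rel.mass`).
`U = diag (v - w)` on `B'' = ⋃ B c`, `T_c = U - U G_c U` on `B c` (`‖T_c‖ ≤ 3/η`, `T_c (1 + G U)… `: check
`T_c = U (1 + G_{cc} U)⁻¹`), `T_d = ∑ T_c`, `E` = off-block part of `G` on `B''`, `T = (1 + T_d E)⁻¹ T_d`,
`G' = G - G T G`. Twisted bounds at rate `θ'`: `T_d ≤ K1`, `E ≤ Ag S e^{-θR}` (`TW.of_entry`), `T ≤ 2K1`,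
`T - T_d = -T_d E T`. Rel2: off `B''`, `K' - K = -K Y` with `Y = γ^{-1/2} T γ^{-1/2} K`, `‖Y‖ ≤ 6/(η g)`,
`‖K'-K‖ ≤ 2`; for a row in `nbhd (B c) R` only the rows `B c` of `Y` matter, `‖K_{·,B c} Y_c‖ ≤ 3` on the rows outside
`B c`; apply `LevD` to every column of `Y_c` after testing the row against a unit vector; `hs_le_card` for the mass. -/

set_option autoImplicit false

open Finset Complex
open scoped Matrix.Norms.L2Operator Matrix

namespace Crest.Agent.N334.AC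

variable {d M : ℕ} [NeZero M]

variable {A : Matrix (Tor d M) (Tor d M) ℂ} {w : Tor d M → ℂ} {O Cs : Finset (Tor d M)}
  {B : Tor d M → Finset (Tor d M)} {v : Tor d M → ℝ} {θ θ' Ag η g K1 tn : ℝ} {Dm R : ℕ}

namespace R2

lemma K_entry (h : Rel A w O Cs B v θ θ' Ag η g K1 tn Dm R) (a b : Tor d M) :
    ‖Km A w a b‖ ≤ Ag * Real.exp (-θ * tdist a b) := by
  have hA : 0 ≤ Ag := zero_le_one.trans h.Ag1
  by_cases ha : gam w a = 0
  · simp only [Km, ha, Real.sqrt_zero, ofReal_zero, zero_mul, norm_zero]; positivity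
  by_cases hb : gam w b = 0
  · simp only [Km, hb, Real.sqrt_zero, ofReal_zero, mul_zero, norm_zero]; positivity
  have h1 := h.tw.entry a b
  rw [cmp, if_pos ⟨h.ports a ha, h.ports b hb⟩] at h1
  have h2 : ∀ x, ‖(√(gam w x) : ℂ)‖ ≤ 1 := fun x => by
    rw [norm_real, Real.norm_of_nonneg (Real.sqrt_nonneg _)]
    exact Real.sqrt_le_one.2 (h.gam_le x)
  calc _ ≤ 1 * ‖Gm A w a b‖ * 1 := by
        rw [Km, norm_mul, norm_mul]
        gcongr
        exacts [h2 a, h2 b]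
    _ ≤ _ := by rwa [one_mul, mul_one]

/-- the far part of `K` -/
noncomputable def Kf (K : Matrix (Tor d M) (Tor d M) ℂ) (R : ℕ) : Matrix (Tor d M) (Tor d M) ℂ :=
  fun a b => if 2 * R < tdist a b then K a b else 0

lemma norm_Kf (h : Rel A w O Cs B v θ θ' Ag η g K1 tn Dm R) :
    ‖Kf (Km A w) R‖ ≤ Ag * (Real.exp (-θ * R) * (6 * d / θ) ^ d) := by
  have hA : 0 ≤ Ag := zero_le_one.trans h.Ag1
  have hθ : 0 < θ := by linarith [h.θ0, h.θ1]
  have key : ∀ (p : Tor d M) (f : Tor d M → ℂ), (∀ x, ‖f x‖ ≤ Ag * Real.exp (-θ * tdist x p)) →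
      ∑ x, ‖if 2 * R < tdist x p then f x else 0‖ ≤
        Ag * (Real.exp (-θ * R) * (6 * d / θ) ^ d) := fun p f hf => by
    have h1 := sum_exp_tail_le hθ h.θ2 p (2 * R)
    rw [show -θ * ((2 * R : ℕ) : ℝ) / 2 = -θ * R by push_cast; ring, Finset.sum_filter] at h1
    refine le_trans ?_ (mul_le_mul_of_nonneg_left h1 hA)
    rw [Finset.mul_sum]
    refine Finset.sum_le_sum fun x _ => ?_
    split_ifs
    · exact hf x
    · simp
  refine norm_le_schur (by positivity) (fun a => ?_) fun b => key b _ fun x => K_entry h x b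
  simpa only [Kf, tdist_comm a] using key a (Km A w a) fun x => tdist_comm a x ▸ K_entry h a x

lemma delta_le (h : Rel A w O Cs B v θ θ' Ag η g K1 tn Dm R) :
    10 * (vol d M (Dm + R) * (Ag * (Real.exp (-θ * R) * (6 * d / θ) ^ d) * (6 / η / g)) ^ 2) ≤
      tn := by
  have hA := h.Ag1
  have hθ : 0 < θ := by linarith [h.θ0, h.θ1]
  have hη := h.η0
  have hg := h.g0
  have hv := one_le_vol (d := d) (M := M) (Dm + R)
  have h1 : 3 / η ≤ K1 := le_trans (le_mul_of_one_le_left (by positivity)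
    (Real.one_le_exp (by have := h.θ0; positivity))) h.hK1
  have h2 : Real.exp (-θ * R) ^ 2 ≤ Real.exp (-θ * R / 2) := by
    rw [← Real.exp_nat_mul]
    refine Real.exp_le_exp.2 ?_
    have : 0 ≤ θ * R := by positivity
    push_cast
    linarith
  have h3 : Ag ^ 2 ≤ Ag ^ 3 := pow_le_pow_right₀ hA (by norm_num)
  have h4 : (6 * d / θ : ℝ) ≤ 12 * d / θ := by gcongr; norm_num
  refine le_trans ?_ h.htn
  calc _ = 40 * vol d M (Dm + R) * Ag ^ 2 * (3 / η) ^ 2 * (6 * d / θ) ^ (2 * d) / g ^ 2 *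
        Real.exp (-θ * R) ^ 2 := by rw [pow_mul']; field_simp; ring
    _ ≤ _ := by gcongr

lemma exists_dat (h : Rel A w O Cs B v θ θ' Ag η g K1 tn Dm R) {c : Tor d M} (hc : c ∈ Cs) :
    ∃ Y D δ, Dat (Km A w) (Kf (Km A w) R) Y D (B c) (Cs.biUnion B) (nbhd (B c) (2 * R))
      (6 / η / g) δ ∧ 10 * (vol d M (Dm + R) * δ ^ 2) ≤ tn ∧ ∀ a, ∑ b ∈ univ \ Cs.biUnion B,
        ‖Km A (wCl w (Cs.biUnion B) v) a b - Km A w a b‖ ^ 2 = ∑ b, ‖D a b‖ ^ 2 := by
  obtain ⟨hA', T, -, hG, hT, ht, -⟩ := h.exists_T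
  obtain ⟨Y, D, h1, h2, h3, h4, h5⟩ := exists_Y h.adm hA' h.g0 (fun x hx => by
    obtain ⟨c, hc, hx⟩ := mem_biUnion.1 hx
    exact h.gam_ge c hc x hx) hG hT ht
  have hδ := delta_le h
  have hv := one_le_vol (d := d) (M := M) (Dm + R)
  have iso : ∀ a ∈ nbhd (B c) (2 * R), ∀ x ∈ Cs.biUnion B, x ∉ B c → 2 * R < tdist a x := by
    intro a ha x hx hx'
    obtain ⟨c', hc', hx⟩ := mem_biUnion.1 hx
    obtain ⟨b, hb, hab⟩ := (mem_filter.1 ha).2
    have h6 := h.iso c hc c' hc' (fun e => hx' (e ▸ hx)) b hb x hx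
    have h7 := tdist_triangle b a x
    rw [tdist_comm b a] at h7
    omega
  refine ⟨Y, D, _, ⟨h1, h2, h3, mul_le_mul_of_nonneg_right (norm_Kf h)
    (by have := h.η0; have := h.g0; positivity), h4, fun a ha x hx hx' =>
      (if_pos (iso a ha x hx hx')).symm, fun a ha x hx => (if_pos ?_).symm, fun a ha ha' hU => ?_,
      ?_⟩, hδ, fun a => ?_⟩
  · exact not_le.1 fun e => ha (mem_filter.2 ⟨mem_univ _, x, hx, e⟩)
  · have := iso a ha a hU ha'
    rw [tdist_self] at this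
    omega
  · nlinarith [h.tn1, sq_nonneg (Ag * (Real.exp (-θ * R) * (6 * d / θ) ^ d) * (6 / η / g))]
  · rw [← Finset.sum_subset (subset_univ (univ \ Cs.biUnion B)) fun b _ hb => by
      rw [h5, if_pos (by simpa using hb), norm_zero, zero_pow two_ne_zero]]
    exact Finset.sum_congr rfl fun b hb => by rw [h5, if_neg (mem_sdiff.1 hb).2]

lemma nbhd_mono (C : Finset (Tor d M)) (R : ℕ) : nbhd C R ⊆ nbhd C (2 * R) := fun a ha => by
  obtain ⟨b, hb, hab⟩ := (mem_filter.1 ha).2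
  exact mem_filter.2 ⟨mem_univ _, b, hb, by omega⟩

end R2
open R2

theorem Rel.row (h : Rel A w O Cs B v θ θ' Ag η g K1 tn Dm R) {ε ζ : ℝ} (hε : tn ≤ ε)
    (hζ : 0 ≤ ζ) (hζ1 : 6 * ζ ≤ η * g) {c a : Tor d M} (hc : c ∈ Cs) (ha : a ∈ nbhd (B c) R)
    (ha' : a ∉ B c) (hl : LevD (Km A w) (B c) ε ζ a) :
    ∑ b ∈ univ \ Cs.biUnion B, ‖Km A (wCl w (Cs.biUnion B) v) a b - Km A w a b‖ ^ 2 ≤ 24 * ε := by
  obtain ⟨Y, D, δ, hD, hδ, e⟩ := exists_dat h hc
  have hv := one_le_vol (d := d) (M := M) (Dm + R)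
  have hη := h.η0
  have hg := h.g0
  have h1 : 10 * δ ^ 2 ≤ ε := by nlinarith [sq_nonneg δ]
  have h2 : ζ * (6 / η / g) ≤ 1 := by
    rw [div_div, mul_div_assoc', div_le_one (by positivity)]
    linarith
  have := hD.row (by nlinarith [sq_nonneg δ]) (pow_le_one₀ (by positivity) h2)
    (nbhd_mono _ _ ha) ha' hl
  rw [e]
  nlinarith [sq_nonneg δ]

theorem Rel.mass (h : Rel A w O Cs B v θ θ' Ag η g K1 tn Dm R) {c : Tor d M} (hc : c ∈ Cs) :
    ∑ a ∈ nbhd (B c) R \ B c, ∑ b ∈ univ \ Cs.biUnion B,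
      ‖Km A (wCl w (Cs.biUnion B) v) a b - Km A w a b‖ ^ 2 ≤ 18 * (B c).card + 1 := by
  obtain ⟨Y, D, δ, hD, hδ, e⟩ := exists_dat h hc
  have h1 := hD.mass (S := nbhd (B c) R \ B c) fun a ha =>
    ⟨nbhd_mono _ _ (mem_sdiff.1 ha).1, (mem_sdiff.1 ha).2⟩
  have h2 : ((nbhd (B c) R \ B c).card : ℝ) ≤ vol d M (Dm + R) := by
    rw [← card_tball c]
    refine Nat.cast_le.2 (card_le_card fun a ha => ?_)
    obtain ⟨b, hb, hab⟩ := (mem_filter.1 (mem_sdiff.1 ha).1).2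
    have h3 := mem_tball.1 (h.diam c hc hb)
    have h4 := tdist_triangle a b c
    exact mem_tball.2 (by omega)
  simp only [e]
  nlinarith [mul_le_mul_of_nonneg_right h2 (sq_nonneg δ), h.tn1]

end Crest.Agent.N334.AC
end

-- ▼ part N334/AC/Weg
section

/-!
# Row 334, S0520 (helper12): Wegner estimate on cells, closing several components at once
-/

set_option autoImplicit false
set_option maxHeartbeats 400000
set_option linter.unusedSectionVars false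

open Matrix Finset
open scoped ComplexConjugate

namespace Crest.Agent.N334.AC

namespace Wg

/-- a bounded primitive -/
noncomputable def ps (b y : ℝ) : ℝ := y / (|y| + b)

theorem abs_ps_le {b : ℝ} (hb : 0 < b) (y : ℝ) : |ps b y| ≤ 1 := by
  have : 0 < |y| + b := by positivity
  rw [ps, abs_div, abs_of_pos this, div_le_one this]
  linarith

theorem ps_sub {b y y' : ℝ} (hb : 0 < b) (h : y ≤ y') :
    b * (y' - y) / ((|y'| + b) * (|y| + b)) ≤ ps b y' - ps b y := by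
  have h1 : 0 < |y| + b := by positivity
  have h2 : 0 < |y'| + b := by positivity
  rw [ps, ps, div_sub_div _ _ h2.ne' h1.ne']
  refine div_le_div_of_nonneg_right ?_ (by positivity)
  rcases le_total 0 y with e | e
  · rw [abs_of_nonneg e, abs_of_nonneg (e.trans h)]; linarith
  · rcases le_total 0 y' with e' | e'
    · rw [abs_of_nonpos e, abs_of_nonneg e']; nlinarith
    · rw [abs_of_nonpos e, abs_of_nonpos e']; linarith

theorem ps_mono {b y y' : ℝ} (hb : 0 < b) (h : y ≤ y') : ps b y ≤ ps b y' :=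
  sub_nonneg.1 (le_trans (div_nonneg (mul_nonneg hb.le (sub_nonneg.2 h)) (by positivity))
    (ps_sub hb h))

theorem term_le {b l : ℝ} (hl : 0 < l) (hb : l ≤ b) (y : ℝ) :
    b / (y ^ 2 + b ^ 2) ≤ 5 / l * (ps b (y + l) - ps b y) := by
  have hb0 := hl.trans_le hb
  refine le_trans ?_ (mul_le_mul_of_nonneg_left (ps_sub hb0 (le_add_of_nonneg_right hl.le))
    (by positivity))
  have h1 : |y + l| ≤ |y| + b := (abs_add_le _ _).trans (by rw [abs_of_pos hl]; linarith)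
  have h2 : (|y + l| + b) * (|y| + b) ≤ 5 * (y ^ 2 + b ^ 2) := by
    refine (mul_le_mul_of_nonneg_right (add_le_add_left h1 b) (by positivity)).trans ?_
    nlinarith [sq_abs y, sq_nonneg (|y| - b), sq_nonneg y]
  rw [add_sub_cancel_left, div_mul_div_comm, div_le_div_iff₀ (by positivity) (by positivity)]
  nlinarith [mul_le_mul_of_nonneg_left h2 (mul_pos hb0 hl).le]

/-- Poisson kernel summed over separated points -/
theorem sum_le {α : Type} [DecidableEq α] {b l : ℝ} (hl : 0 < l) (hb : l ≤ b) (a : ℝ) (c : α → ℝ)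
    (J : Finset α) (hJ : ∀ i ∈ J, ∀ j ∈ J, i ≠ j → l ≤ |c i - c j|) :
    ∑ j ∈ J, b / ((c j - a) ^ 2 + b ^ 2) ≤ 10 / l := by
  have hb0 := hl.trans_le hb
  have key : ∀ X, (∀ j ∈ J, c j + l ≤ X) →
      ∑ j ∈ J, b / ((c j - a) ^ 2 + b ^ 2) ≤ 5 / l * (ps b (X - a) + 1) := by
    induction J using Finset.induction_on_max_value c with
    | empty =>
      intro X _
      rw [sum_empty]
      exact mul_nonneg (by positivity) (by linarith [(abs_le.1 (abs_ps_le hb0 (X - a))).1])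
    | insert i s hi hmax ih =>
      intro X hX
      have h1 := ih (fun x hx y hy => hJ x (mem_insert_of_mem hx) y (mem_insert_of_mem hy)) (c i)
        fun j hj => by
          have := hJ i (mem_insert_self _ _) j (mem_insert_of_mem hj) (by rintro rfl; exact hi hj)
          rw [abs_of_nonneg (sub_nonneg.2 (hmax j hj))] at this
          linarith
      have h2 := term_le hl hb (c i - a)
      have h3 := ps_mono hb0 (show c i - a + l ≤ X - a by linarith [hX i (mem_insert_self _ _)])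
      rw [sum_insert hi]
      nlinarith [mul_le_mul_of_nonneg_left h3 (show 0 ≤ 5 / l by positivity)]
  obtain ⟨X, hX⟩ := (J.image fun j => c j + l).bddAbove
  refine (key X fun j hj => hX (mem_coe.2 (mem_image_of_mem _ hj))).trans ?_
  rw [show 10 / l = 5 / l * 2 by ring]
  exact mul_le_mul_of_nonneg_left (by linarith [(abs_le.1 (abs_ps_le hb0 (X - a))).2])
    (by positivity)


end Wg

variable {ι : Type} [Fintype ι] [DecidableEq ι] {A : Matrix ι ι ℂ} {w w' : ι → ℂ}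

/-- rank one: the diagonal entry as a function of a real shift -/
theorem exists_pole (h : Adm A w) (t : ι) {l : ℝ} (hl : 0 < l) (ht : l ≤ gam w t) :
    ∃ a b : ℝ, l ≤ b ∧ ∀ (c : ℝ) (w' : ι → ℂ), Adm A w' → (∀ s, s ≠ t → w' s = w s) →
      w' t = w t + c → (Gm A w' t t).im ≤ b / ((c - a) ^ 2 + b ^ 2) := by
  have key : ∀ (c : ℝ) (w' : ι → ℂ), Adm A w' → (∀ s, s ≠ t → w' s = w s) → w' t = w t + c →
      Gm A w' t t = Gm A w t t - Gm A w t t * c * Gm A w' t t := fun c w' h' h1 h2 => by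
    have := congrFun (congrFun (res1 h h') t) t
    rw [Matrix.sub_apply, Matrix.mul_apply, sum_eq_single t] at this
    · rwa [Dm, mul_diagonal, h2, add_sub_cancel_left] at this
    · intro s _ hs
      rw [Dm, mul_diagonal, h1 s hs, sub_self, mul_zero, zero_mul]
    · simp
  by_cases hg : Gm A w t t = 0
  · refine ⟨0, l, le_rfl, fun c w' h' h1 h2 => ?_⟩
    rw [key c w' h' h1 h2, hg]
    simp only [zero_mul, sub_zero, Complex.zero_im]
    positivity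
  have h0 : l * ‖Gm A w t t‖ ^ 2 ≤ (Gm A w t t).im := by
    rw [← h.ward_col t]
    exact (mul_le_mul_of_nonneg_right ht (by positivity)).trans (single_le_sum
      (f := fun a => gam w a * ‖Gm A w a t‖ ^ 2)
      (fun a _ => mul_nonneg (h.diss a) (by positivity)) (mem_univ t))
  have hb : l ≤ -((Gm A w t t)⁻¹).im := by
    rw [Complex.inv_im, neg_div, neg_neg, le_div_iff₀ (Complex.normSq_pos.2 hg),
      Complex.normSq_eq_norm_sq]
    exact h0
  refine ⟨-((Gm A w t t)⁻¹).re, _, hb, fun c w' h' h1 h2 => le_of_eq ?_⟩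
  have e : Gm A w' t t = ((Gm A w t t)⁻¹ + c)⁻¹ := by
    refine eq_inv_of_mul_eq_one_left ?_
    have := key c w' h' h1 h2
    field_simp
    linear_combination this
  rw [e, Complex.inv_im, Complex.normSq_apply]
  simp only [Complex.add_im, Complex.add_re, Complex.ofReal_im, Complex.ofReal_re, add_zero]
  congr 1
  ring

/-- trace bound for a damped block -/
theorem bd_of_trace (h : Adm A w) {T : Finset ι} {l g : ℝ} (hl : 0 < l)
    (hT : ∀ a ∈ T, l ≤ gam w a) (hs : ∑ t ∈ T, (Gm A w t t).im ≤ l * g ^ 2) :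
    Bd (mask T T (Gm A w)) g := by
  refine bd_hs _ (le_of_mul_le_mul_left (le_trans ?_ hs) hl)
  rw [sum_comm, mul_sum, ← sum_subset (subset_univ T) fun b _ hb => by simp [mask_apply, hb]]
  refine sum_le_sum fun b _ => ?_
  rw [← h.ward_col b, mul_sum]
  refine sum_le_sum fun a _ => ?_
  rw [mask_apply]
  split_ifs with hab
  · exact mul_le_mul_of_nonneg_right (hT a hab.1) (by positivity)
  · simpa using mul_nonneg (h.diss a) (sq_nonneg _)

/-- close `T` at the real values `v` -/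
def cls (w : ι → ℂ) (T : Finset ι) (v : ι → ℝ) : ι → ℂ := fun x => if x ∈ T then (v x : ℂ) else w x



namespace Wg

/-- the regularised closing -/
noncomputable def reg (w : ι → ℂ) (T : Finset ι) (l : ℝ) (c : ι → ℝ) : ι → ℂ :=
  fun x => if x ∈ T then (c x : ℂ) - l * Complex.I else w x

theorem gam_reg {T : Finset ι} {l : ℝ} {c : ι → ℝ} {x : ι} (h : x ∈ T) :
    gam (reg w T l c) x = l := by simp [gam, reg, h]

theorem adm_reg (h : Adm A w) (T : Finset ι) {l : ℝ} (hl : 0 < l) (c : ι → ℝ) :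
    Adm A (reg w T l c) :=
  h.damp (T := T) (fun _ ha => if_neg ha) fun a ha => by rwa [gam_reg ha]


/-- the regularised diagonal entry as a function of the cells -/
noncomputable def fr {α : Type} (A : Matrix ι ι ℂ) (w : ι → ℂ) (T : Finset ι) (l : ℝ)
    (c : ι → α → ℝ) (t : ι) (j : ι → α) : ℝ := (Gm A (reg w T l fun s => c s (j s)) t t).im





end Wg



end Crest.Agent.N334.AC
end

-- ▼ part N334/AC/L/Weg
section

/-! # S0520 part L: Wegner estimate on cells (leaf).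
`weg_good`: `a = (G_η)_{BB}`, Ward: `Im a ≥ η aᴴ a`; `‖(1+iηa)φ‖² ≥ (1 - 2η Tr Im a)‖φ‖²`, so the closed
system at `v` is invertible with `‖G_{BB}‖ ≤ 1/η`; then perturb by `|v'-v| ≤ η/4`.
`weg_avg`: `avgP_update`; in the variable `v_x`, `1/G_xx = v_x + const`, `Im (1/G_xx) ≤ -η` (or `G_xx ≡ 0`), and
`∑_{i<m} Im 1/(a + i s - z) ≤ 10/s` for `Im z ≥ η ≥ s`. -/

set_option autoImplicit false

open Finset Complex
open scoped Matrix.Norms.L2Operator Matrix

namespace Crest.Agent.N334.AC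

variable {ι : Type} [Fintype ι] [DecidableEq ι] {A : Matrix ι ι ℂ} {w : ι → ℂ} {B : Finset ι}

lemma Adm.eta (h : Adm A w) (v : ι → ℝ) {η : ℝ} (hη : 0 < η) : Adm A (wEta w B v η) :=
  Wg.adm_reg h B hη v

lemma gam_wEta {v : ι → ℝ} {η : ℝ} {x : ι} (hx : x ∈ B) : gam (wEta w B v η) x = η :=
  Wg.gam_reg hx

lemma Adm.diss_wCl (h : Adm A w) (v : ι → ℝ) (a : ι) : 0 ≤ gam (wCl w B v) a := by
  by_cases ha : a ∈ B
  · simp [gam, wCl, ha]
  · simpa [gam, wCl, ha] using h.diss a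

theorem Adm.weg_good (h : Adm A w) {v v' : ι → ℝ} {η : ℝ} (hη : 0 < η)
    (hg : η * ∑ x ∈ B, (Gm A (wEta w B v η) x x).im ≤ 1 / 4) (hv : ∀ x ∈ B, |v' x - v x| ≤ η / 4) :
    Adm A (wCl w B v') ∧ ‖cmp (Gm A (wCl w B v')) B‖ ≤ 2 / η := by
  have h1 := h.eta (B := B) v hη
  have h2 := bd_of_trace h1 (T := B) hη (g := 1 / (2 * η)) (fun a ha => (gam_wEta ha).ge) (by
    rw [← le_div_iff₀' hη] at hg
    exact hg.trans (le_of_eq (by field_simp; norm_num)))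
  obtain ⟨h3, h4⟩ := h1.pert (w' := wCl w B v) (T := B) (fun a ha => by simp [wCl, wEta, ha])
    (u := η) hη.le (by positivity) (fun a ha => by
      simp [wCl, wEta, ha, abs_of_pos hη]) h2 (le_of_eq (by field_simp)) (h.diss_wCl v)
  obtain ⟨h5, h6⟩ := h3.pert (w' := wCl w B v') (T := B) (fun a ha => by simp [wCl, ha])
    (u := η / 4) (by positivity) (by positivity) (fun a ha => by
      simp only [wCl, ha, if_true]
      rw [← ofReal_sub, norm_real, Real.norm_eq_abs]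
      exact hv a ha) h4 (by field_simp; norm_num) (h.diss_wCl v')
  refine ⟨h5, ?_⟩
  rw [show 2 * (2 * (1 / (2 * η))) = 2 / η by field_simp] at h6
  exact (bd_iff_norm (by positivity)).1 h6

theorem Adm.weg_avg (h : Adm A w) {a : ι → ℝ} {s η : ℝ} {m : ι → ℕ} (hm : ∀ x, 0 < m x)
    (hs : 0 < s) (hη : s ≤ η) :
    avgP m (fun ξ => η * ∑ x ∈ B, (Gm A (wEta w B (fun z => a z + ξ z * s) η) x x).im) ≤
      ∑ x ∈ B, 10 * η / (m x * s) := by
  have hη0 := hs.trans_le hη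
  rw [avgP_mul, avgP_sum, mul_sum]
  refine sum_le_sum fun x hx => ?_
  have hmx : (0 : ℝ) < m x := Nat.cast_pos.2 (hm x)
  have key : avgP m (fun ξ => (Gm A (wEta w B (fun z => a z + ξ z * s) η) x x).im) ≤
      10 / s / m x := by
    rw [avgP_update hm x, ← avgP_const hm (10 / s / m x)]
    refine avgP_mono fun ξ _ => div_le_div_of_nonneg_right ?_ hmx.le
    obtain ⟨p, b, hb, H⟩ := exists_pole
      (h.eta (B := B) (Function.update (fun z => a z + ξ z * s) x 0) hη0) x hs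
      (by rw [gam_wEta hx]; exact hη)
    refine le_trans (sum_le_sum fun i _ => ?_)
      (Wg.sum_le hs hb p (fun i : ℕ => a x + i * s) (range (m x)) fun i _ j _ hij => ?_)
    · refine H (a x + i * s) _ (h.eta _ hη0) (fun t ht => ?_) ?_
      · simp [wEta, Function.update_of_ne ht]
      · simp only [wEta, hx, if_true, Function.update_self, ofReal_zero]
        ring
    · rw [add_sub_add_left_eq_sub, ← sub_mul, abs_mul, abs_of_pos hs]
      refine le_mul_of_one_le_left hs.le ?_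
      have : (1 : ℤ) ≤ |(i : ℤ) - j| := Int.one_le_abs (sub_ne_zero.2 (by exact_mod_cast hij))
      exact_mod_cast this
  exact (mul_le_mul_of_nonneg_left key hη0.le).trans (le_of_eq (by field_simp))

end Crest.Agent.N334.AC
end

-- ▼ part N334/AC/F/Wit

/-! # S0520 part F: the witness recursion (leaf) -/

set_option autoImplicit false

open Finset

namespace Crest.Agent.N334.AC

variable {d M : ℕ} [NeZero M]

namespace Wt

theorem crowd_eq (m far Rc : ℕ) (p : Tor d M) :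
    ∃ T : Finset (Finset (Tor d M)), (∀ S, S ∈ T ↔ S ⊆ tball p Rc ∧ S.card = m ∧ Sep far S) ∧
      ∀ g : Tor d M → ℝ, crowd m far Rc g p = ∑ S ∈ T, ∏ q ∈ S, g q := by
  classical
  refine ⟨((tball p Rc).powersetCard m).filter (Sep far), fun S => ?_, fun g => ?_⟩
  · simp only [mem_filter, mem_powersetCard, and_assoc]
  · unfold crowd
    congr

theorem one_le_prodR {ι : Type} {s : Finset ι} {f : ι → ℝ} (h : ∀ i ∈ s, 1 ≤ f i) :
    1 ≤ ∏ i ∈ s, f i := by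
  simpa using prod_le_prod (s := s) (f := fun _ => (1 : ℝ)) (fun _ _ => zero_le_one) h

theorem crowd_nonneg (m far Rc : ℕ) {f : Tor d M → ℝ} (h : ∀ q, 0 ≤ f q) (p : Tor d M) :
    0 ≤ crowd m far Rc f p := by
  obtain ⟨T, -, e⟩ := crowd_eq m far Rc p
  rw [e]
  exact sum_nonneg fun S _ => prod_nonneg fun q _ => h q

theorem crowd_mono (m far Rc : ℕ) {f g : Tor d M → ℝ} (h : ∀ q, 0 ≤ f q) (h' : ∀ q, f q ≤ g q)
    (p : Tor d M) : crowd m far Rc f p ≤ crowd m far Rc g p := by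
  obtain ⟨T, -, e⟩ := crowd_eq m far Rc p
  rw [e, e]
  exact sum_le_sum fun S _ => prod_le_prod (fun q _ => h q) fun q _ => h' q

theorem prod_le_crowd {m far Rc : ℕ} {f : Tor d M → ℝ} (h : ∀ q, 0 ≤ f q) {p : Tor d M}
    {S : Finset (Tor d M)} (h1 : S ⊆ tball p Rc) (h2 : S.card = m) (h3 : Sep far S) :
    ∏ q ∈ S, f q ≤ crowd m far Rc f p := by
  obtain ⟨T, hT, e⟩ := crowd_eq m far Rc p
  rw [e]
  exact single_le_sum (f := fun S : Finset (Tor d M) => ∏ q ∈ S, f q)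
    (fun S _ => prod_nonneg fun q _ => h q) ((hT S).2 ⟨h1, h2, h3⟩)

theorem crowd_le (m far Rc : ℕ) {f : Tor d M → ℝ} {c : ℝ} (h : ∀ q, 0 ≤ f q) (h' : ∀ q, f q ≤ c)
    (p : Tor d M) : crowd m far Rc f p ≤ (vol d M Rc * c) ^ m := by
  obtain ⟨T, hT, e⟩ := crowd_eq m far Rc p
  have hc : 0 ≤ c := (h p).trans (h' p)
  have h1 : T.card ≤ (tball p Rc).card ^ m := by
    refine le_trans (card_le_card (t := (tball p Rc).powersetCard m) fun S hS => ?_) ?_
    · exact mem_powersetCard.2 ⟨((hT S).1 hS).1, ((hT S).1 hS).2.1⟩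
    · rw [card_powersetCard]
      exact Nat.choose_le_pow _ _
  have h2 : ∑ S ∈ T, ∏ q ∈ S, f q ≤ T.card • c ^ m := by
    refine sum_le_card_nsmul _ _ _ fun S hS => ?_
    rw [← ((hT S).1 hS).2.1, ← prod_const]
    exact prod_le_prod (fun q _ => h q) fun q _ => h' q
  rw [e, mul_pow, ← card_tball p]
  refine h2.trans ?_
  rw [nsmul_eq_mul]
  exact mul_le_mul_of_nonneg_right (by exact_mod_cast h1) (pow_nonneg hc _)

theorem Fw_zero (ρ : Rad) (cut : ℕ) (base : ℕ → Tor d M → ℝ) (p : Tor d M) :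
    Fw ρ cut base 0 p = base 0 p := rfl

theorem Fw_succ (ρ : Rad) (cut : ℕ) (base : ℕ → Tor d M → ℝ) (k : ℕ) (p : Tor d M) :
    Fw ρ cut base (k + 1) p = base (k + 1) p + if k + 1 ≤ cut then 0 else
      crowd (ρ.m (k + 1)) (2 * ρ.r k + 1) (ρ.Rc (k + 1)) (Fw ρ cut base k) p := rfl

theorem Fw_of_le (ρ : Rad) {cut : ℕ} (base : ℕ → Tor d M → ℝ) {k : ℕ} (h : k ≤ cut)
    (p : Tor d M) : Fw ρ cut base k p = base k p := by
  cases k with
  | zero => rfl
  | succ k => rw [Fw_succ, if_pos h, add_zero]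

theorem Fw_nonneg (ρ : Rad) (cut : ℕ) {base : ℕ → Tor d M → ℝ} (h0 : ∀ k p, 0 ≤ base k p)
    (k : ℕ) (p : Tor d M) : 0 ≤ Fw ρ cut base k p := by
  induction k generalizing p with
  | zero => exact h0 0 p
  | succ k ih =>
    rw [Fw_succ]
    refine add_nonneg (h0 _ _) ?_
    split_ifs
    · exact le_rfl
    · exact crowd_nonneg _ _ _ ih p

theorem base_le_Fw (ρ : Rad) (cut : ℕ) {base : ℕ → Tor d M → ℝ} (h0 : ∀ k p, 0 ≤ base k p)
    (k : ℕ) (p : Tor d M) : base k p ≤ Fw ρ cut base k p := by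
  cases k with
  | zero => exact le_rfl
  | succ k =>
    rw [Fw_succ]
    refine le_add_of_nonneg_right ?_
    split_ifs
    · exact le_rfl
    · exact crowd_nonneg _ _ _ (Fw_nonneg ρ cut h0 k) p

theorem Fw_mono (ρ : Rad) (cut : ℕ) {base base' : ℕ → Tor d M → ℝ} (h0 : ∀ k p, 0 ≤ base k p)
    (h : ∀ k p, base k p ≤ base' k p) (k : ℕ) (p : Tor d M) :
    Fw ρ cut base k p ≤ Fw ρ cut base' k p := by
  induction k generalizing p with
  | zero => exact h 0 p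
  | succ k ih =>
    rw [Fw_succ, Fw_succ]
    refine add_le_add (h _ _) ?_
    split_ifs
    · exact le_rfl
    · exact crowd_mono _ _ _ (Fw_nonneg ρ cut h0 k) ih p

theorem Hw_nonneg (ρ : Rad) (cut : ℕ) {base : ℕ → Tor d M → ℝ} (h0 : ∀ k p, 0 ≤ base k p)
    (a b : ℕ) (x : Tor d M) : 0 ≤ Hw ρ cut base a b x :=
  sum_nonneg fun k _ => sum_nonneg fun p _ => Fw_nonneg ρ cut h0 k p

theorem base_le_Hw (ρ : Rad) (cut : ℕ) {base : ℕ → Tor d M → ℝ} (h0 : ∀ k p, 0 ≤ base k p)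
    {a b k : ℕ} (ha : a ≤ k) (hb : k < b) {x p : Tor d M} (hp : tdist p x ≤ ρ.r (k + 1)) :
    base k p ≤ Hw ρ cut base a b x := by
  refine (base_le_Fw ρ cut h0 k p).trans (le_trans ?_ (single_le_sum
    (f := fun k => ∑ p ∈ tball x (ρ.r (k + 1)), Fw ρ cut base k p)
    (fun k _ => sum_nonneg fun p _ => Fw_nonneg ρ cut h0 k p) (mem_Ico.2 ⟨ha, hb⟩)))
  exact single_le_sum (f := fun p => Fw ρ cut base k p) (fun p _ => Fw_nonneg ρ cut h0 k p)
    (mem_tball.2 hp)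

/-- `Psi` is monotone in the witness functions -/
theorem Psi_le (ρ : Rad) (X : Finset (Tor d M)) (k1 K : ℕ) {cut cut' : ℕ}
    {base base' : ℕ → Tor d M → ℝ} (h0 : ∀ k p, 0 ≤ base k p)
    (h : ∀ k p, Fw ρ cut base k p ≤ Fw ρ cut' base' k p) :
    Psi ρ X k1 K cut base ≤ Psi ρ X k1 K cut' base' := by
  have h1 : ∀ a b x, Hw ρ cut base a b x ≤ Hw ρ cut' base' a b x := fun a b x =>
    sum_le_sum fun k _ => sum_le_sum fun p _ => h k p
  exact add_le_add (prod_le_prod (fun x _ => Hw_nonneg ρ cut h0 _ _ x) fun x _ => h1 _ _ x)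
    (sum_le_sum fun x _ => h1 _ _ x)

theorem Fw_mem {Ω : Type} (C : Cls (Tor d M) Ω) (ρ : Rad) {cut : ℕ}
    {base : ℕ → Tor d M → ℝ} {base' : Ω → ℕ → Tor d M → ℝ}
    (h0 : ∀ k p, 0 ≤ base k p) (h1 : ∀ ω k, k ≠ cut → base' ω k = base k)
    (h2 : ∀ p, C.mem (tball p (ρ.r cut)) (base cut p) fun ω => base' ω cut p) (k : ℕ)
    (p : Tor d M) :
    C.mem (tball p (ρ.r k)) (Fw ρ cut base k p) fun ω => Fw ρ cut (base' ω) k p := by
  have hb : ∀ k p, C.mem (tball p (ρ.r k)) (base k p) fun ω => base' ω k p := by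
    intro k p
    by_cases hk : k = cut
    · subst hk; exact h2 p
    · simp only [h1 _ k hk]
      exact C.const _ _ (h0 k p)
  induction k generalizing p with
  | zero => exact hb 0 p
  | succ k ih =>
    simp only [Fw_succ]
    refine C.add (hb _ p) ?_
    by_cases hk : k + 1 ≤ cut
    · simp only [if_pos hk]
      exact C.const _ _ le_rfl
    · simp only [if_neg hk]
      obtain ⟨T, hT, e⟩ := crowd_eq (ρ.m (k + 1)) (2 * ρ.r k + 1) (ρ.Rc (k + 1)) p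
      simp only [e]
      refine C.sum T fun S hS => ?_
      obtain ⟨hS1, -, hS3⟩ := (hT S).1 hS
      refine C.prod S (U := fun q => tball q (ρ.r k)) (fun q hq q' hq' hne => ?_)
        (fun q hq => ?_) fun q _ => ih q
      · exact disjoint_tball (by have := hS3 q hq q' hq' hne; omega)
      · exact tball_subset (by have := mem_tball.1 (hS1 hq); have := ρ.le k; omega)

/-- links of the clusters -/
def Lk (R : ℕ) (P : Finset (Tor d M)) (p q : Tor d M) : Prop :=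
  p ∈ P ∧ q ∈ P ∧ tdist p q ≤ 10 * R

omit [NeZero M] in
/-- connected by links -/
def Cn (R : ℕ) (P : Finset (Tor d M)) : Tor d M → Tor d M → Prop := Relation.ReflTransGen (Lk R P)

theorem Cn.symm {R : ℕ} {P : Finset (Tor d M)} {p q : Tor d M} (h : Cn R P p q) : Cn R P q p := by
  induction h with
  | refl => exact Relation.ReflTransGen.refl
  | tail _ h ih =>
    exact Relation.ReflTransGen.head ⟨h.2.1, h.1, by rw [tdist_comm]; exact h.2.2⟩ ih

/-- discrete intermediate values along a chain -/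
theorem Cn.exists_mid {R : ℕ} (hR : 0 < R) {P : Finset (Tor d M)} {p q : Tor d M} (hp : p ∈ P)
    (h : Cn R P p q) {t : ℕ} (ht : t ≤ tdist q p) :
    ∃ z ∈ P, t ≤ tdist z p ∧ tdist z p < t + 10 * R := by
  induction h with
  | refl => exact ⟨p, hp, ht, by rw [tdist_self]; omega⟩
  | @tail b c _ h ih =>
    by_cases hb : t ≤ tdist b p
    · exact ih hb
    · refine ⟨c, h.2.1, ht, ?_⟩
      have h1 := tdist_triangle c b p
      have h2 := h.2.2
      rw [tdist_comm] at h2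
      omega

theorem crowded_of_far (ρ : Rad) {k R : ℕ} {P : Finset (Tor d M)}
    (hR : 2 * ρ.r k + 1 ≤ 10 * R) (hRc : 20 * ρ.m (k + 1) * R ≤ ρ.Rc (k + 1)) {p q : Tor d M}
    (hp : p ∈ P) (h : Cn R P p q) (hq : 20 * ρ.m (k + 1) * R < tdist q p) : Crowded ρ k P p := by
  classical
  have hR0 : 0 < R := by omega
  have h1 : ∀ i : ℕ, ∃ z, i < ρ.m (k + 1) →
      z ∈ P ∧ 20 * (i * R) ≤ tdist z p ∧ tdist z p < 20 * (i * R) + 10 * R := by
    intro i
    by_cases hi : i < ρ.m (k + 1)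
    · have h2 : i * R ≤ ρ.m (k + 1) * R := Nat.mul_le_mul_right _ hi.le
      obtain ⟨z, hz⟩ := h.exists_mid hR0 hp (t := 20 * (i * R)) (by rw [mul_assoc] at hq; omega)
      exact ⟨z, fun _ => hz⟩
    · exact ⟨p, fun h => absurd h hi⟩
  choose z hz using h1
  have h2 : ∀ i j, i < j → j < ρ.m (k + 1) → 10 * R < tdist (z j) (z i) := by
    intro i j hij hj
    have h3 := (hz i (hij.trans hj)).2.2
    have h4 := (hz j hj).2.1
    have h5 := tdist_triangle (z j) (z i) p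
    have h6 : (i + 1) * R ≤ j * R := Nat.mul_le_mul_right _ hij
    rw [add_mul, one_mul] at h6
    omega
  have h3 : ∀ i < ρ.m (k + 1), ∀ j < ρ.m (k + 1), i ≠ j → 10 * R < tdist (z i) (z j) := by
    intro i hi j hj hne
    rcases lt_or_gt_of_ne hne with h | h
    · rw [tdist_comm]; exact h2 i j h hj
    · exact h2 j i h hi
  refine ⟨(range (ρ.m (k + 1))).image z, fun y hy => ?_, ?_, fun y hy y' hy' hne => ?_⟩
  · obtain ⟨i, hi, rfl⟩ := mem_image.1 hy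
    have hi' := mem_range.1 hi
    refine mem_inter.2 ⟨(hz i hi').1, mem_tball.2 ?_⟩
    have h4 := (hz i hi').2.2
    have h6 : (i + 1) * R ≤ ρ.m (k + 1) * R := Nat.mul_le_mul_right _ hi'
    rw [add_mul, one_mul] at h6
    rw [mul_assoc] at hRc
    omega
  · rw [card_image_of_injOn, card_range]
    intro i hi j hj e
    by_contra hne
    have := h3 i (by simpa using hi) j (by simpa using hj) hne
    rw [e, tdist_self] at this
    omega
  · obtain ⟨i, hi, rfl⟩ := mem_image.1 hy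
    obtain ⟨j, hj, rfl⟩ := mem_image.1 hy'
    have := h3 i (mem_range.1 hi) j (mem_range.1 hj) fun e => hne (e ▸ rfl)
    omega

end Wt

open Wt

/-- one step: only the level `cut` moves. Induction on `k`: `Fw k p ∈ C.mem (tball p (ρ.r k))`. -/
theorem Psi_mem {Ω : Type} (C : Cls (Tor d M) Ω) (ρ : Rad) {X : Finset (Tor d M)} {k1 K cut : ℕ}
    (hX : Sep (4 * ρ.r k1 + 1) X) {base : ℕ → Tor d M → ℝ} {base' : Ω → ℕ → Tor d M → ℝ}
    (h0 : ∀ k p, 0 ≤ base k p) (h1 : ∀ ω k, k ≠ cut → base' ω k = base k)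
    (h2 : ∀ p, C.mem (tball p (ρ.r cut)) (base cut p) fun ω => base' ω cut p) :
    C.mem univ (Psi ρ X k1 K cut base) fun ω => Psi ρ X k1 K cut (base' ω) := by
  classical
  have hF := Fw_mem C ρ h0 h1 h2
  refine C.add (C.prod X (U := fun x => tball x (2 * ρ.r k1)) (fun x hx y hy hne => ?_)
    (fun _ _ => subset_univ _) fun x _ => ?_) (C.sum X fun x _ => ?_)
  · exact disjoint_tball (by have := hX x hx y hy hne; omega)
  · refine C.sum _ fun k hk => C.sum _ fun p hp => C.mono (tball_subset ?_) (hF k p)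
    have h3 := mem_tball.1 hp
    have h4 : ρ.r (k + 1) ≤ ρ.r k1 := ρ.mono (mem_Ico.1 hk).2
    have h5 : ρ.r k ≤ ρ.r k1 := ρ.mono (mem_Ico.1 hk).2.le
    omega
  · exact C.sum _ fun k _ => C.sum _ fun p _ => C.mono (subset_univ _) (hF k p)

theorem Psi_mono (ρ : Rad) (X : Finset (Tor d M)) (k1 K cut : ℕ) {base base' : ℕ → Tor d M → ℝ}
    (h0 : ∀ k p, 0 ≤ base k p) (h : ∀ k p, base k p ≤ base' k p) :
    Psi ρ X k1 K cut base ≤ Psi ρ X k1 K cut base' := by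
  exact Psi_le ρ X k1 K h0 (Fw_mono ρ cut h0 h)

theorem Psi_nonneg (ρ : Rad) (X : Finset (Tor d M)) (k1 K cut : ℕ) {base : ℕ → Tor d M → ℝ}
    (h0 : ∀ k p, 0 ≤ base k p) : 0 ≤ Psi ρ X k1 K cut base := by
  exact add_nonneg (prod_nonneg fun x _ => Hw_nonneg ρ cut h0 _ _ x)
    (sum_nonneg fun x _ => Hw_nonneg ρ cut h0 _ _ x)

/-- change of epoch: level `cut` is replaced by the indicator of its seeds `P`; at level `cut+1`
a crowded point may take the value `1`. -/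
theorem Psi_next (ρ : Rad) (X : Finset (Tor d M)) (k1 K cut : ℕ) {base base' : ℕ → Tor d M → ℝ}
    {P : Finset (Tor d M)} (h0 : ∀ k p, 0 ≤ base' k p) (hP : ∀ p ∈ P, 1 ≤ base cut p)
    (h : ∀ k p, k ≠ cut + 1 → base' k p ≤ base k p)
    (h' : ∀ p, base' (cut + 1) p ≤ base (cut + 1) p ∨
      (Crowded ρ cut P p ∧ base' (cut + 1) p ≤ 1)) (h1 : ∀ p, 0 ≤ base (cut + 1) p) :
    Psi ρ X k1 K (cut + 1) base' ≤ Psi ρ X k1 K cut base := by
  have hb : ∀ k p, 0 ≤ base k p := fun k p => by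
    by_cases hk : k = cut + 1
    · subst hk; exact h1 p
    · exact (h0 k p).trans (h k p hk)
  refine Psi_le ρ X k1 K h0 fun k => ?_
  induction k with
  | zero => exact fun p => h 0 p (by omega)
  | succ k ih =>
    intro p
    rcases lt_trichotomy k cut with hk | rfl | hk
    · rw [Fw_of_le ρ _ (by omega), Fw_of_le ρ _ (by omega)]
      exact h _ p (by omega)
    · rw [Fw_of_le ρ _ le_rfl]
      rcases h' p with h2 | ⟨⟨S, hS1, hS2, hS3⟩, h2⟩
      · exact h2.trans (base_le_Fw ρ k hb _ p)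
      · rw [Fw_succ, if_neg (by omega)]
        have h3 := prod_le_crowd (Fw_nonneg ρ k hb k) (hS1.trans inter_subset_right) hS2 hS3
        have h4 : 1 ≤ ∏ q ∈ S, Fw ρ k base k q := one_le_prodR fun q hq =>
          (hP q (mem_inter.1 (hS1 hq)).1).trans (base_le_Fw ρ k hb k q)
        linarith [h1 p]
    · rw [Fw_succ, Fw_succ, if_neg (by omega), if_neg (by omega)]
      exact add_le_add (h _ p (by omega)) (crowd_mono _ _ _ (Fw_nonneg ρ _ h0 k) ih p)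

/-- all observers captured at low levels -/
theorem one_le_Psi_low (ρ : Rad) {X : Finset (Tor d M)} {k1 K cut : ℕ} {base : ℕ → Tor d M → ℝ}
    (h0 : ∀ k p, 0 ≤ base k p)
    (h : ∀ x ∈ X, ∃ k < k1, ∃ p, tdist p x ≤ ρ.r (k + 1) ∧ 1 ≤ base k p) :
    1 ≤ Psi ρ X k1 K cut base := by
  refine le_add_of_le_of_nonneg (one_le_prodR fun x hx => ?_)
    (sum_nonneg fun x _ => Hw_nonneg ρ cut h0 _ _ x)
  obtain ⟨k, hk, p, hp, h1⟩ := h x hx
  exact h1.trans (base_le_Hw ρ cut h0 (Nat.zero_le k) hk hp)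

/-- one observer captured at a high level -/
theorem one_le_Psi_high (ρ : Rad) {X : Finset (Tor d M)} {k1 K cut : ℕ} {base : ℕ → Tor d M → ℝ}
    (h0 : ∀ k p, 0 ≤ base k p) {x : Tor d M} (hx : x ∈ X) {k : ℕ} (hk : k1 - 1 ≤ k) (hK : k ≤ K)
    {p : Tor d M} (hp : tdist p x ≤ ρ.r (k + 1)) (h : 1 ≤ base k p) :
    1 ≤ Psi ρ X k1 K cut base := by
  refine le_add_of_nonneg_of_le (prod_nonneg fun x _ => Hw_nonneg ρ cut h0 _ _ x) ?_
  refine (h.trans (base_le_Hw ρ cut h0 hk (Nat.lt_succ_of_le hK) hp)).trans ?_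
  exact single_le_sum (f := fun x => Hw ρ cut base (k1 - 1) (K + 1) x)
    (fun x _ => Hw_nonneg ρ cut h0 _ _ x) hx

/-- initial value: `Fw k p ≤ 2 b k` by induction -/
theorem Psi_init (ρ : Rad) (X : Finset (Tor d M)) (k1 K : ℕ) {base : ℕ → Tor d M → ℝ} {b : ℕ → ℝ}
    {τ : ℝ} (h0 : ∀ k p, 0 ≤ base k p) (hb : ∀ k p, base k p ≤ b k)
    (hrec : ∀ k, (vol d M (ρ.Rc (k + 1)) * (2 * b k)) ^ ρ.m (k + 1) ≤ b (k + 1))
    (hlow : ∑ k ∈ range k1, vol d M (ρ.r (k + 1)) * (2 * b k) ≤ 1 / 2)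
    (hhigh : ∑ k ∈ Ico (k1 - 1) (K + 1), vol d M (ρ.r (k + 1)) * (2 * b k) ≤ τ) :
    Psi ρ X k1 K 0 base ≤ (1 / 2) ^ X.card + X.card * τ := by
  have hF : ∀ k p, Fw ρ 0 base k p ≤ 2 * b k := by
    intro k
    induction k with
    | zero => exact fun p => by rw [Fw_zero]; linarith [h0 0 p, hb 0 p]
    | succ k ih =>
      intro p
      rw [Fw_succ, if_neg (by omega)]
      linarith [hb (k + 1) p, hrec k, crowd_le (ρ.m (k + 1)) (2 * ρ.r k + 1) (ρ.Rc (k + 1))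
        (Fw_nonneg ρ 0 h0 k) ih p]
  have hH : ∀ a c x, Hw ρ 0 base a c x ≤ ∑ k ∈ Ico a c, vol d M (ρ.r (k + 1)) * (2 * b k) := by
    intro a c x
    refine sum_le_sum fun k _ => ?_
    rw [← card_tball x, ← nsmul_eq_mul]
    exact sum_le_card_nsmul _ _ _ fun p _ => hF k p
  refine add_le_add ?_ ?_
  · rw [← prod_const]
    refine prod_le_prod (fun x _ => Hw_nonneg ρ 0 h0 _ _ x) fun x _ => (hH _ _ x).trans ?_
    rwa [← range_eq_Ico]
  · rw [← nsmul_eq_mul]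
    exact sum_le_card_nsmul _ _ _ fun x _ => (hH _ _ x).trans hhigh

/-- CLUSTERS. `P` seeds of level `k`, `Q` seeds of level `k+1` (they contain the crowded points of
`P`), `R` isolation unit. `cl c` = connected component of `c` in `P` for the links `tdist ≤ 10 R`,
`Cs` = one representative of every component at distance `> 10 R` from `Q`. A component that leaves
the ball of radius `20 m R` around one of its points `p` has points in `m` annuli
`[20 i R, 20 i R + 10 R)`, so `p` is crowded. -/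
theorem exists_clusters (ρ : Rad) (k R : ℕ) (P Q : Finset (Tor d M))
    (hR : 2 * ρ.r k + 1 ≤ 10 * R) (hRc : 20 * ρ.m (k + 1) * R ≤ ρ.Rc (k + 1))
    (hQ : ∀ p ∈ P, Crowded ρ k P p → p ∈ Q) :
    ∃ (Cs : Finset (Tor d M)) (cl : Tor d M → Finset (Tor d M)),
      (∀ c ∈ Cs, c ∈ cl c ∧ cl c ⊆ P ∧ cl c ⊆ tball c (20 * ρ.m (k + 1) * R) ∧ c ∉ Q) ∧
      (∀ c ∈ Cs, ∀ p ∈ cl c, ∀ q ∈ P, q ∉ cl c → 10 * R < tdist p q) ∧
      (∀ c ∈ Cs, ∀ p ∈ cl c, ∀ q ∈ Q, 10 * R < tdist p q) ∧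
      (∀ c ∈ Cs, ∀ c' ∈ Cs, c ≠ c' → Disjoint (cl c) (cl c')) ∧
      (∀ p ∈ P, (∃ c ∈ Cs, p ∈ cl c) ∨ ∃ q ∈ Q, tdist p q ≤ 20 * ρ.m (k + 1) * R + 10 * R) := by
  classical
  let cl : Tor d M → Finset (Tor d M) := fun c => P.filter (Cn R P c)
  let pick : Finset (Tor d M) → Tor d M := fun s => if h : s.Nonempty then h.choose else 0
  have hpick : ∀ s : Finset (Tor d M), s.Nonempty → pick s ∈ s := fun s h => by
    simp only [pick, dif_pos h]
    exact h.choose_spec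
  have hmem : ∀ c p, p ∈ cl c ↔ p ∈ P ∧ Cn R P c p := fun c p => mem_filter
  have hself : ∀ c ∈ P, c ∈ cl c := fun c hc => (hmem c c).2 ⟨hc, Relation.ReflTransGen.refl⟩
  have heq : ∀ c p, p ∈ cl c → cl p = cl c := fun c p hp => by
    ext q
    rw [hmem, hmem]
    have h1 := ((hmem c p).1 hp).2
    exact and_congr_right fun _ => ⟨fun h => Relation.ReflTransGen.trans h1 h,
      fun h => Relation.ReflTransGen.trans h1.symm h⟩
  have hball : ∀ c ∈ P, c ∉ Q → cl c ⊆ tball c (20 * ρ.m (k + 1) * R) := fun c hc hcQ q hq =>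
    mem_tball.2 (not_lt.1 fun h =>
      hcQ (hQ c hc (crowded_of_far ρ hR hRc hc ((hmem c q).1 hq).2 h)))
  refine ⟨P.filter fun c => (∀ p ∈ cl c, ∀ q ∈ Q, 10 * R < tdist p q) ∧ pick (cl c) = c, cl,
    fun c hc => ?_, fun c _ p hp q hq hq' => ?_, fun c hc => (mem_filter.1 hc).2.1,
    fun c hc c' hc' hne => ?_, fun p hp => ?_⟩
  · obtain ⟨h1, h2, -⟩ := mem_filter.1 hc
    have h3 : c ∉ Q := fun h => by
      have := h2 c (hself c h1) c h
      rw [tdist_self] at this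
      omega
    exact ⟨hself c h1, filter_subset _ _, hball c h1 h3, h3⟩
  · by_contra h
    obtain ⟨h1, h2⟩ := (hmem c p).1 hp
    exact hq' ((hmem c q).2 ⟨hq, Relation.ReflTransGen.tail h2 ⟨h1, hq, not_lt.1 h⟩⟩)
  · refine disjoint_left.2 fun p hp hp' => hne ?_
    rw [← (mem_filter.1 hc).2.2, ← (mem_filter.1 hc').2.2, ← heq c p hp, ← heq c' p hp']
  · by_cases h : ∀ p' ∈ cl p, ∀ q ∈ Q, 10 * R < tdist p' q
    · have h1 := hpick (cl p) ⟨p, hself p hp⟩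
      have h2 := heq p _ h1
      refine Or.inl ⟨pick (cl p), mem_filter.2 ⟨((hmem _ _).1 h1).1, ?_, ?_⟩, ?_⟩
      · rwa [h2]
      · rw [h2]
      · rw [h2]; exact hself p hp
    · push Not at h
      obtain ⟨p', hp', q, hq, h⟩ := h
      by_cases hpQ : p ∈ Q
      · exact Or.inr ⟨p, hpQ, by rw [tdist_self]; omega⟩
      · refine Or.inr ⟨q, hq, ?_⟩
        have h1 := mem_tball.1 (hball p hp hpQ hp')
        have h2 := tdist_triangle p p' q
        rw [tdist_comm] at h1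
        omega

/-- a point that is not crowded sees few sites near the seeds -/
theorem card_near_le (ρ : Rad) (k : ℕ) (P : Finset (Tor d M)) {p : Tor d M}
    (hp : ¬ Crowded ρ k P p) {s D : ℕ} (hD : D + s ≤ ρ.Rc (k + 1)) :
    ((univ.filter fun x => tdist x p ≤ D ∧ ∃ q ∈ P, tdist x q ≤ s).card : ℝ) ≤
      ρ.m (k + 1) * vol d M (2 * ρ.r k + s) := by
  classical
  obtain ⟨S, hS1, hS2, hS3⟩ := exists_sep_cover (P ∩ tball p (ρ.Rc (k + 1))) (2 * ρ.r k)
  have h1 : S.card ≤ ρ.m (k + 1) := by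
    by_contra h
    obtain ⟨S', h2, h3⟩ := exists_subset_card_eq (not_le.1 h).le
    exact hp ⟨S', h2.trans hS1, h3, hS2.mono le_rfl h2⟩
  have h2 : (univ.filter fun x => tdist x p ≤ D ∧ ∃ q ∈ P, tdist x q ≤ s) ⊆
      S.biUnion fun c => tball c (2 * ρ.r k + s) := by
    intro x hx
    obtain ⟨-, h3, q, hq, h4⟩ := mem_filter.1 hx
    have h5 := tdist_triangle q x p
    rw [tdist_comm q x] at h5
    obtain ⟨c, hc, h6⟩ := hS3 q (mem_inter.2 ⟨hq, mem_tball.2 (by omega)⟩)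
    have h7 := tdist_triangle x q c
    exact mem_biUnion.2 ⟨c, hc, mem_tball.2 (by omega)⟩
  have h3 : (((S.biUnion fun c => tball c (2 * ρ.r k + s)).card : ℕ) : ℝ) ≤
      ∑ c ∈ S, ((tball c (2 * ρ.r k + s)).card : ℝ) := by exact_mod_cast card_biUnion_le
  simp only [card_tball, sum_const, nsmul_eq_mul] at h3
  refine le_trans (by exact_mod_cast card_le_card h2) (h3.trans ?_)
  exact mul_le_mul_of_nonneg_right (by exact_mod_cast h1) (zero_le_one.trans (one_le_vol _))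

end Crest.Agent.N334.AC
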